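import Crest.Agent.N337.Ld.Cov
import Crest.Agent.N337.M.Defs

/-!
# Row 337 (helper77): unions of grid cubes; weakening of the cell claims
-/

set_option autoImplicit false
set_option linter.unusedSectionVars false

namespace Crest.Agent.N337.Ld

open Finset Crest.Agent.N337.Free Crest.Agent.N337.I Crest.Agent.N337.M Crest.Agent.N337.Gas

section grid
variable {L n σ σ' : ℕ} [NeZero L] {z0 : Tor 3 L} {C : Finset (Tor 3 L × Fin n)}

/-- `C` is a union of grid cubes of side `σ` (all colours). -/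
def Grd (z0 : Tor 3 L) (σ : ℕ) (C : Finset (Tor 3 L × Fin n)) : Prop :=
  ∀ x ∈ C, ∀ y : Tor 3 L × Fin n, idx z0 σ y.1 = idx z0 σ x.1 → y ∈ C

theorem Grd.dvd (h : Grd z0 σ' C) (hσ : σ ∣ σ') : Grd z0 σ C :=
  fun x hx y e => h x hx y (idx_dvd hσ e)

/-- the corridors of the top cube are unions of grid cubes. -/
theorem grd_cor [NeZero n] {q wd l : ℕ} (h0 : 0 < σ) (h1 : σ ∣ q) (h2 : σ ∣ wd) (h3 : σ ∣ l) (i : Fin 4) :
    Grd z0 σ (A.Cor (A.cubeS n z0 l) (A.coz z0) q wd i) := by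
  obtain ⟨q, rfl⟩ := h1
  obtain ⟨wd, rfl⟩ := h2
  obtain ⟨l, rfl⟩ := h3
  have k : ∀ a : ℕ, (a + i * (σ * q)) % (4 * (σ * q)) < σ * wd ↔ (a / σ + i * q) % (4 * q) < wd :=
    fun a => by
      rw [mul_comm σ wd, ← Nat.div_lt_iff_lt_mul h0, mul_left_comm 4, Nat.mod_mul_right_div_self,
        mul_left_comm, Nat.add_mul_div_left _ _ h0]
  intro x hx y e
  obtain ⟨c, a, ha⟩ := A.mem_Cor.1 hx
  refine A.mem_Cor.2 ⟨A.mem_cubeS.2 fun b => ?_, a, ?_⟩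
  · have := A.mem_cubeS.1 c b
    rw [mul_comm, ← Nat.div_lt_iff_lt_mul h0] at this ⊢
    exact (congrFun e b).trans_lt this
  · rw [k] at ha ⊢
    exact (congrArg (fun t => (t + i * q) % (4 * q)) (congrFun e a)).trans_lt ha

/-- a newly killed point of a union of cubes is seen by the octant counter. -/
theorem Grd.oct_lt {T : ℕ} [NeZero T] (h : Grd z0 σ C) {Z : Finset (V L n T)} {u : V L n T}
    (hu : u.2 ∈ C) (hZ : u ∉ Z) {y : Tor 3 L} (hy : 2 * tdist y u.2.1 ≤ σ) :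
    oct z0 σ (kil Z) y < oct z0 σ (kil (Z ∪ A.cyl C)) y :=
  I.oct_lt (kil_mono subset_union_left) hy (fun k => hZ (mem_of_kil k)) fun u' e =>
    mem_kil.2 fun _ c => mem_union_right _ (A.mem_cyl.2 (h _ hu (u', c) e))

end grid

section mono
variable {Λ : Type} [Fintype Λ] [DecidableEq Λ] {T : ℕ} [NeZero T] {X α κ : Type} [Fintype X]
  [DecidableEq X] [SemilatticeSup α] [Preorder κ]
  {I : Ins T Λ X α κ} {G : Bs T Λ} {Sd Sd' : Finset (Fin T × Λ) → Prop}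
  {d m nc nc' r r' nA nA' R R0 R1 R2 R3 : ℕ} {y Y ε ε' π : ℝ} {μ : Lp T Λ → ℝ} {s : Cfg T Λ}
  {F : Finset X} {E : Cfg T Λ → (Tp T Λ → ℝ) → ℝ} {U : Cfg T Λ → Finset (Fin T × Λ)}

theorem Ad.mono (h : Ad I G Sd d m nc R s F) (hS : ∀ Z, Sd Z → Sd' Z) (hn : nc ≤ nc') :
    Ad I G Sd' d m nc' R s F := ⟨h.val, hS _ h.sd, h.card.trans hn, h.cl⟩

/-- without cover the radii do not matter. -/
theorem Ad.zero (h : Ad I G Sd d m 0 R s F) (hS : ∀ Z, Sd Z → Sd' Z) (nc R' : ℕ) :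
    F = ∅ ∧ Ad I G Sd' d m nc R' s F := by
  obtain rfl := card_eq_zero.1 (Nat.le_zero.1 h.card)
  exact ⟨rfl, h.val, hS _ h.sd, Nat.zero_le _, fun x _ => Cls.all h.cl x⟩

theorem off_empty (S : Rg.Sys X α κ) (R : ℕ) (x : X) : S.Off ∅ R x :=
  fun f hf => absurd hf (notMem_empty f)

theorem F1.mono (f : F1 I G Sd y d m nc R0 R1 ε) (hS : ∀ Z, Sd' Z → Sd Z) (hn : nc' ≤ nc)
    (he : ε ≤ ε') : F1 I G Sd' y d m nc' R0 R1 ε' :=
  fun s F x U a hx => (f s F x U (a.mono hS hn) hx).trans he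
theorem F2.mono (f : F2 I G Sd Y d m nc R0 R1 ε) (hS : ∀ Z, Sd' Z → Sd Z) (hn : nc' ≤ nc)
    (he : ε ≤ ε') : F2 I G Sd' Y d m nc' R0 R1 ε' :=
  fun s F x a hx => (f s F x (a.mono hS hn) hx).trans he
theorem F3.mono (f : F3 I G Sd E U d m nc R0 R2 R3 ε) (hS : ∀ Z, Sd' Z → Sd Z) (hn : nc' ≤ nc)
    (he : ε ≤ ε') : F3 I G Sd' E U d m nc' R0 R2 R3 ε' :=
  fun s F x a hx => (f s F x (a.mono hS hn) hx).trans he
theorem N1.mono (f : N1 I G Sd y d m ε) (hS : ∀ Z, Sd' Z → Sd Z) (he : ε ≤ ε') :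
    N1 I G Sd' y d m ε' := fun s x a => (f s x (a.mono hS le_rfl)).trans he
theorem N2.mono (f : N2 I G Sd Y d m ε) (hS : ∀ Z, Sd' Z → Sd Z) (he : ε ≤ ε') :
    N2 I G Sd' Y d m ε' := fun s x a => (f s x (a.mono hS le_rfl)).trans he
theorem N3.mono (f : N3 I G Sd E d m ε) (hS : ∀ Z, Sd' Z → Sd Z) (he : ε ≤ ε') :
    N3 I G Sd' E d m ε' := fun s x a => (f s x (a.mono hS le_rfl)).trans he
theorem F4.mono {π' : ℝ} (f : F4 I G Sd Y μ d m π) (hS : ∀ Z, Sd' Z → Sd Z) (he : π ≤ π') :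
    F4 I G Sd' Y μ d m π' := fun s v a => (f s v (a.mono hS le_rfl)).trans he
theorem Anc.mono (a : Anc I G Sd d m r nA) (hS : ∀ Z, Sd' Z → Sd Z) (hr : r' ≤ r)
    (hn : nA ≤ nA') : Anc I G Sd' d m r' nA' := fun x =>
  (a x).imp fun _ h => ⟨h.1.trans hn, fun s B k1 k2 k3 ⟨f, hf, z, k4, k5⟩ =>
    h.2 s B (k1.mono hS le_rfl) k2 k3 ⟨f, hf, z, k4, k5.trans hr⟩⟩
theorem F123.mono (f : F123 I G Sd y Y E U d m nc R0 R1 R2 R3 ε) (hS : ∀ Z, Sd' Z → Sd Z)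
    (hn : nc' ≤ nc) (he : ε ≤ ε') : F123 I G Sd' y Y E U d m nc' R0 R1 R2 R3 ε' :=
  ⟨f.e0.trans he, f.f1.mono hS hn he, f.f2.mono hS hn he, f.f3.mono hS hn he⟩

theorem F1.zero (f : F1 I G Sd y d m nc R0 R1 ε) : F1 I G Sd y d m 0 0 0 ε := fun s F x U a _ => by
  obtain ⟨rfl, b⟩ := a.zero (fun _ h => h) nc R0
  exact f s _ x U b (off_empty _ _ _)
theorem F2.zero (f : F2 I G Sd Y d m nc R0 R1 ε) : F2 I G Sd Y d m 0 0 0 ε := fun s F x a _ => by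
  obtain ⟨rfl, b⟩ := a.zero (fun _ h => h) nc R0
  exact f s _ x b (off_empty _ _ _)
theorem F3.zero (f : F3 I G Sd E U d m nc R0 R2 R3 ε) : F3 I G Sd E U d m 0 0 0 0 ε :=
  fun s F x a _ => by
    obtain ⟨rfl, b⟩ := a.zero (fun _ h => h) nc R0
    refine le_trans (le_of_eq ?_) (f s _ x b (off_empty _ _ _))
    congr 1
    funext ω
    exact propext (and_congr_left' ⟨fun h x _ => h.all x, fun h x _ => h.all x⟩)
theorem F123.zero (f : F123 I G Sd y Y E U d m nc R0 R1 R2 R3 ε) :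
    F123 I G Sd y Y E U d m 0 0 0 0 0 ε := ⟨f.e0, f.f1.zero, f.f2.zero, f.f3.zero⟩

theorem AlvH.mono {N N' nD nD' : ℕ} (h : AlvH I N m nD) (hN : N' ≤ N) (hD : nD ≤ nD') :
    AlvH I N' m nD' := fun s hs =>
  (h s (hs.imp fun _ k => ⟨k.1.trans hN, k.2⟩)).imp fun _ k => ⟨k.1.trans hD, k.2⟩

theorem Few.mono {t nP nP' nD nD' : ℕ} {Z : Finset (Fin T × Λ)} (h : Few I m t nP nD Z)
    (hP : nP ≤ nP') (hD : nD ≤ nD') : Few I m t nP' nD' Z := by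
  obtain ⟨P, Dm, h1, h2, h3⟩ := h
  exact ⟨P, Dm, h1.trans hP, h2.trans hD, h3⟩

end mono

end Crest.Agent.N337.Ld
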