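import Crest.Agent.N337.Ld.Abs
import Crest.Agent.N337.Pe.Av
import Crest.Agent.N337.TK.Defs

/-!
# Row 337 (helper77), C10: reduction to child models, purple loops with marks

`J ex ey p b μ F` = mean of `F ξ C B`: coins `ξ ~ Pw p`, purple loops `C` (alive with probability
`ub b`), marked loops `B ⊆ C` (marked with probability `μ`).
-/

set_option autoImplicit false
set_option linter.unusedSectionVars false

namespace Crest.Agent.N337.Ld

open Finset Crest.Agent.N337.Op Crest.Agent.N337.Gas Crest.Agent.N337.Pc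
open Crest.Agent.N337.Rep (Pw Pw_nonneg sum_Pw)

section abs
variable {Γ : Type} [Fintype Γ] [DecidableEq Γ] {q : Finset Γ → ℝ} {u : Γ → ℝ}











/-! ### thinning -/

theorem sum_bw (D : Γ → ℝ) (X : Finset Γ) (f : Finset Γ → ℝ) :
    ∑ B ∈ X.powerset, bw D X B * f B = Pe.av D X f := by
  refine sum_congr rfl fun B hB => ?_
  have hB := mem_powerset.1 hB
  rw [bw, Pe.wt, prod_ite, filter_mem_eq_inter, inter_eq_right.2 hB, sdiff_eq_filter]

theorem av_add (D : Γ → ℝ) (X : Finset Γ) (f f' : Finset Γ → ℝ) :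
    Pe.av D X (fun B => f B + f' B) = Pe.av D X f + Pe.av D X f' := by
  simp only [Pe.av, mul_add, sum_add_distrib]

theorem av_mul (D : Γ → ℝ) (X : Finset Γ) (a : ℝ) (f : Finset Γ → ℝ) :
    Pe.av D X (fun B => a * f B) = a * Pe.av D X f := by
  simp only [Pe.av, mul_sum]; exact sum_congr rfl fun _ _ => by ring

theorem av_congr_D {D D' : Γ → ℝ} {X : Finset Γ} (h : ∀ g ∈ X, D g = D' g) (f : Finset Γ → ℝ) :
    Pe.av D X f = Pe.av D' X f :=
  sum_congr rfl fun B _ => by rw [Pe.wt, Pe.wt, prod_congr rfl fun g hg => by rw [h g hg]]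

/-- thinning twice. -/
theorem av_av (D μ : Γ → ℝ) (X : Finset Γ) (f : Finset Γ → ℝ) :
    Pe.av D X (fun C => Pe.av μ C f) = Pe.av (fun g => D g * μ g) X f := by
  induction X using Finset.induction_on generalizing f with
  | empty => simp only [Pe.av_empty]
  | insert g X hg ih =>
    rw [Pe.av_insert hg, Pe.av_insert hg, ih, Pe.av_congr (ψ' := fun B =>
      μ g * Pe.av μ B (fun B' => f (insert g B')) + (1 - μ g) * Pe.av μ B f)
      fun B hB => Pe.av_insert (fun h => hg (hB h)) f, av_add, av_mul, av_mul, ih, ih]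
    ring

theorem av_sdiff {D : Γ → ℝ} {A : Finset Γ} (h : ∀ g ∈ A, D g = 0) (X : Finset Γ)
    (f : Finset Γ → ℝ) : Pe.av D X f = Pe.av D (X \ A) f := by
  induction X using Finset.induction_on generalizing f with
  | empty => simp
  | insert g X hg ih =>
    rw [Pe.av_insert hg]
    by_cases h1 : g ∈ A
    · rw [h g h1, insert_sdiff_of_mem _ h1, ih f]; ring
    · rw [insert_sdiff_of_notMem _ h1, Pe.av_insert fun h2 => hg (mem_sdiff.1 h2).1, ih, ih f]

theorem pl_av {D : Γ → ℝ} {X : Finset Γ} (hD : ∀ g ∈ X, 0 ≤ D g ∧ D g ≤ 1) :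
    PL (Pe.av D X) fun B => B ⊆ X ∧ ∀ g ∈ B, D g ≠ 0 where
  mono f f' h := sum_le_sum fun B hB => by
    have hB := mem_powerset.1 hB
    by_cases h0 : Pe.wt D X B = 0
    · simp [h0]
    · refine mul_le_mul_of_nonneg_left (h B ⟨hB, fun g hg => ?_⟩) (Pe.wt_nn hD B)
      simpa [hg] using prod_ne_zero_iff.1 h0 g (hB hg)
  add := av_add D X
  mul := av_mul D X

variable {Ξ : Type} [Fintype Ξ] {P : Ξ → ℝ} {L : Ξ → Finset Γ} {D : Γ → ℝ}

theorem mkE_sum (x : Finset Γ) (c : Γ → ℝ) :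
    mkE P L D x (fun B => ∑ g ∈ B, c g) = ∑ g, c g * D g * up (qP P L) x g := by
  simp only [mkE, sum_bw, Pe.av_sum, up, sh, qP]
  have : ∀ g, c g * D g * (if g ∈ x then 0 else
      (∑ ξ, P ξ * if x ∪ {g} ⊆ L ξ then 1 else 0) / ∑ ξ, P ξ * if x ⊆ L ξ then 1 else 0) =
      (∑ ξ, P ξ * if x ⊆ L ξ ∧ g ∈ L ξ \ x then c g * D g else 0) /
        ∑ ξ, P ξ * if x ⊆ L ξ then 1 else 0 := fun g => by
    split_ifs with h
    · simp [h]
    · rw [← mul_div_assoc, mul_sum]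
      congr 1
      refine sum_congr rfl fun ξ _ => ?_
      simp only [union_subset_iff, singleton_subset_iff, mem_sdiff, h, not_false_iff, and_true]
      split_ifs <;> ring
  simp only [this]
  rw [← sum_div, sum_comm]
  congr 1
  refine sum_congr rfl fun ξ _ => ?_
  rw [← mul_sum]
  congr 1
  split_ifs with h
  · simp only [h, true_and]
    rw [← sum_filter, filter_mem_eq_inter, univ_inter]
  · simp [h]


end abs

section loop
variable {Λ : Type} [Fintype Λ] [DecidableEq Λ] {T : ℕ} [NeZero T] (ex ey : Fin T → Λ)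

/-- coins, purple loops `C`, marked loops `B ⊆ C`. -/
noncomputable def J (p : Fin T → ℝ) (b : Fin T × Λ → ℝ) (μ : Lp T Λ → ℝ)
    (F : (Fin T → Bool) × Finset (Lp T Λ) × Finset (Lp T Λ) → ℝ) : ℝ :=
  ∑ ξ, Pw p ξ * Pe.av (ub b) (L ex ey ξ) fun C => Pe.av μ C fun B => F (ξ, C, B)

variable {ex ey} {p : Fin T → ℝ} {b : Fin T × Λ → ℝ} {μ u D : Lp T Λ → ℝ} {A x : Finset (Lp T Λ)}
  {g : Lp T Λ}

theorem qP_eq (p : Fin T → ℝ) : qP (Pw p) (L ex ey) = qq ex ey p := rfl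

theorem pr_Pw (hp : ∀ s, 0 ≤ p s ∧ p s ≤ 1) : Pr (Pw p) := ⟨Pw_nonneg hp, sum_Pw p⟩

theorem pl_J (hp : ∀ s, 0 ≤ p s ∧ p s ≤ 1) (hb : ∀ v, 0 ≤ b v ∧ b v ≤ 1)
    (hμ : ∀ g, 0 ≤ μ g ∧ μ g ≤ 1) : PL (J ex ey p b μ) fun ω => Pw p ω.1 ≠ 0 ∧
      ω.2.1 ⊆ L ex ey ω.1 ∧ (∀ g ∈ ω.2.1, ub b g ≠ 0) ∧ ω.2.2 ⊆ ω.2.1 ∧ ∀ g ∈ ω.2.2, μ g ≠ 0 where
  mono f f' h := sum_le_sum fun ξ _ => by
    by_cases h0 : Pw p ξ = 0
    · simp [h0]
    refine mul_le_mul_of_nonneg_left ?_ (Pw_nonneg hp ξ)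
    exact (pl_av fun g _ => ⟨ub_nn (fun v => (hb v).1) g, ub_le_one hb g⟩).mono _ _ fun C hC =>
      (pl_av fun g _ => hμ g).mono _ _ fun B hB => h _ ⟨h0, hC.1, hC.2, hB.1, hB.2⟩
  add f f' := by simp only [J, av_add, mul_add, sum_add_distrib]
  mul a f := by
    simp only [J, av_mul, mul_sum]; exact sum_congr rfl fun _ _ => by ring


theorem J_purple (F : (Fin T → Bool) → Finset (Lp T Λ) → ℝ) :
    J ex ey p b μ (fun ω => F ω.1 ω.2.1) = ∑ ξ, Pw p ξ * Pe.av (ub b) (L ex ey ξ) (F ξ) := by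
  simp only [J, Pe.av_const]

theorem J_mark (F : (Fin T → Bool) → Finset (Lp T Λ) → ℝ) :
    J ex ey p b μ (fun ω => F ω.1 ω.2.2) =
      ∑ ξ, Pw p ξ * Pe.av (fun g => ub b g * μ g) (L ex ey ξ) (F ξ) := by
  simp only [J, ← av_av]

theorem ub_kill_of {ξ : Fin T → Bool} (hx : x ⊆ L ex ey ξ) (hg : g ∈ L ex ey ξ) :
    ub (kill b (pts x)) g = if g ∈ x then 0 else ub b g := by
  rw [ub_kill, off]
  refine if_congr ⟨fun ⟨v, h1, h2⟩ => ?_, fun h => ?_⟩ rfl rfl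
  · obtain ⟨g', h3, h4⟩ := mem_pts.1 h2
    exact L_eq hg (hx h3) h1 h4 ▸ h3
  · obtain ⟨v, hv⟩ := L_nonempty hg
    exact ⟨v, hv, mem_pts.2 ⟨g, h, hv⟩⟩

/-- **the marked up loops given `x` are the marked purple loops of the child.** -/
theorem mkE_eq_J (hx : qq ex ey p x ≠ 0) (hD : ∀ g, D g = ub b g * μ g) (f : Finset (Lp T Λ) → ℝ) :
    mkE (Pw p) (L ex ey) D x f = J ex ey (pin ex ey p x) (kill b (pts x)) μ fun ω => f ω.2.2 := by
  rw [J_mark fun _ => f, mkE, qP_eq, sum_div]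
  refine sum_congr rfl fun ξ _ => ?_
  rw [show Pw (pin ex ey p x) ξ = (Pw p ξ * if x ⊆ L ex ey ξ then 1 else 0) / qq ex ey p x by
    rw [Pw_cond hx]; field_simp]
  split_ifs with h
  · rw [sum_bw, av_sdiff (D := fun g => ub (kill b (pts x)) g * μ g) (A := x)
      (fun g hg => by rw [ub_kill_of h (h hg), if_pos hg, zero_mul]),
      av_congr_D (D := fun g => ub (kill b (pts x)) g * μ g) (D' := D) fun g hg => by
        rw [ub_kill_of h (mem_sdiff.1 hg).1, if_neg (mem_sdiff.1 hg).2, hD]]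
    ring
  · simp

/-- the medium given `A` in loop form. -/
theorem med_eq (hp : ∀ s, 0 ≤ p s ∧ p s ≤ 1) (hA : qq ex ey p A ≠ 0) :
    med (qq ex ey p) (ub b) A = nu (qq ex ey (pin ex ey p A)) (ub (kill b (pts A))) := by
  rw [med, sh_qq hA, ub_kill]
  refine nu_congr (cpt_qq (pin_mem hp A)) fun g hg => ?_
  refine if_congr ⟨fun h => ?_, fun ⟨v, h1, h2⟩ => ?_⟩ rfl rfl
  · obtain ⟨v, hv⟩ := qq_nonempty hA h
    exact ⟨v, hv, mem_pts.2 ⟨g, h, hv⟩⟩
  · exact (mem_or_disjoint hA hg).resolve_right fun h => disjoint_left.1 h h1 h2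





end loop

end Crest.Agent.N337.Ld
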