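import Crest.Agent.N337.Rg.Cnt
import Crest.Agent.N337.Ld.Child
import Crest.Agent.N337.M.Cls
import Crest.Agent.N337.M.Peel
import Crest.Agent.N337.M.TkD
import Crest.Agent.N337.Pc.Loop

-- ▼ part N337/Ld/Tri
section

/-!
# Row 337 (helper77), C10: classes of environments and union bounds over the cells

`Cls S d E Z m t F R`: the cells of scale `m` off the balls `(F, R)` have rung `≤ t`.
A random triple: medium `w`, purple loops `C`, new pins `B ≤ w ⊔ C`.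
-/

set_option autoImplicit false
set_option linter.unusedSectionVars false

namespace Crest.Agent.N337.Ld

open Finset Crest.Agent.N337.Rg

variable {X α κ Ω : Type} [Fintype X] [SemilatticeSup α] [Preorder κ]

/-- the class of the environment. -/
def Cls (S : Sys X α κ) (d : ℕ) (E : α) (Z : κ) (m t : ℕ) (F : Finset X) (R : ℕ) : Prop :=
  ∀ x, S.Off F R x → S.Good d E Z m t x

/-- the cells outside `Dm` are dead. -/
def Alv (S : Sys X α κ) (Z : κ) (m : ℕ) (Dm : Finset X) : Prop :=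
  ∀ x, x ∉ Dm → ∀ z, S.d x z ≤ S.loc m → S.dead Z z

/-- every cell off the balls goes up by at most one rung. -/
def Stp (S : Sys X α κ) (d : ℕ) (E B : α) (Z Z' : κ) (m : ℕ) (F : Finset X) (R : ℕ) : Prop :=
  ∀ t x, S.Off F R x → S.Good d E Z m t x → S.Good d (E ⊔ B) Z' m (t + 1) x

/-- the party `B` has a point within `r` of `A`. -/
def Nr (S : Sys X α κ) (A : Finset X) (r : ℕ) (B : α) : Prop :=
  ∃ f ∈ A, ∃ z, S.hit B z ∧ S.d f z ≤ r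

/-- failing cells, failing children. -/
abbrev Fl (S : Sys X α κ) (d : ℕ) (E : α) (Z : κ) (w : α) (m : ℕ) (x : X) : Prop :=
  S.Fl (S.Jk d E Z) (S.W0 w E Z) m x
abbrev Fn (S : Sys X α κ) (d : ℕ) (E : α) (Z : κ) (w : α) (m : ℕ) (x : X) : Prop :=
  S.Fn (S.Jk d E Z) (S.W0 w E Z) 0 m x
/-- covisit trees with cleanliness in the final state `E2`. -/
abbrev W2 (S : Sys X α κ) (d : ℕ) (E E2 B : α) (Z Z' : κ) (m : ℕ) (x : X) : Prop :=
  S.W2 d E Z (S.Vis B Z Z') (S.Iso (S.Jk (d + 1 + 1) E2 Z)) m x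
abbrev Wn (S : Sys X α κ) (d : ℕ) (E E2 B : α) (Z : κ) (m : ℕ) (x : X) : Prop :=
  S.Wn d E Z (S.Vis B Z Z) (S.Iso (S.Jk (d + 1 + 1) E2 Z)) 0 m x

variable {S : Sys X α κ} {d d' m t t' R R' R0 R1 R2 R3 : ℕ} {E E' B : α} {Z Z' : κ}
  {F F' Dm : Finset X} {μ : (Ω → Prop) → ℝ} {ε ε' π : ℝ} {x : X}

theorem Cls.mono (h : Cls S d E Z m t F R) (hd : d ≤ d') (hE : E' ≤ E) (hZ : Z ≤ Z') (ht : t ≤ t')
    (hF : F ⊆ F') (hR : R ≤ R') : Cls S d' E' Z' m t' F' R' :=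
  fun x hx => (h x (hx.mono hF hR)).mono hd hE hZ ht

theorem Cls.all (h : Cls S d E Z m t ∅ R) (x : X) : S.Good d E Z m t x :=
  h x fun f hf => absurd hf (notMem_empty f)

theorem Stp.cls (h : Stp S d E B Z Z' m F R') (hc : Cls S d E Z m t F R) (hR : R ≤ R') :
    Cls S d (E ⊔ B) Z' m (t + 1) F R' := fun x hx => h t x hx (hc x (hx.mono Subset.rfl hR))

theorem Stp.mono {B' : α} (h : Stp S d E B Z Z' m F R) (hB : B' ≤ B) : Stp S d E B' Z Z' m F R :=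
  fun t x hx hg => (h t x hx hg).mono le_rfl (sup_le_sup_left hB E) le_rfl le_rfl

/-- the children off the covers. -/
theorem cls_child {P : Finset X} [DecidableEq X] (hG : ∀ p ∈ P, S.Good d E Z (m + 1) t p)
    (hA : Alv S Z m Dm) (hP : ∀ y ∈ Dm, ∃ p ∈ P, S.In m t p y) :
    Cls S d E Z m (S.k0 + S.oc + d) (P.biUnion (S.cov d E Z m)) (S.rad m t) := fun y hy => by
  by_cases h : y ∈ Dm
  · obtain ⟨p, hp, h1⟩ := hP y h
    exact (hG p hp).child h1 (hy.mono (subset_biUnion_of_mem _ hp) le_rfl)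
  · exact Sys.good_dead (hA y h)

/-- `B` stays away from the balls `(F', R')` of the larger environment `E'`. -/
theorem Stp.far (h : Stp S d E' B Z Z m F' R') (hE : E ≤ E') (hc' : Cls S d E' Z m t F' R')
    (hc : Cls S d E Z m t F R) (hB : ¬ Nr S F' (R' + S.loc m) B) :
    Cls S d (E ⊔ B) Z m (t + 1) F R := fun x hx => by
  by_cases hv : ∃ z, S.hit B z ∧ S.d x z ≤ S.loc m
  · obtain ⟨z, h1, h2⟩ := hv
    have ho : S.Off F' R' x := fun f hf => lt_of_not_ge fun h3 =>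
      hB ⟨f, hf, z, h1, (S.d_tri f x z).trans (Nat.add_le_add h3 h2)⟩
    exact (h t x ho (hc' x ho)).mono le_rfl (sup_le_sup_right hE B) le_rfl le_rfl
  · exact ((hc x hx).loc fun z hz => lt_of_not_ge fun h2 => hv ⟨z, hz, h2⟩).up (Nat.le_succ t)

theorem Sub.un (hμ : Sub μ) {ι : Type} (s : Finset ι) {A : Ω → Prop} (A' : ι → Ω → Prop)
    (h : ∀ ω, A ω → ∃ i ∈ s, A' i ω) (he : ∀ i ∈ s, μ (A' i) ≤ ε) : μ A ≤ s.card * ε :=
  (hμ.union s A' h).trans ((sum_le_card_nsmul _ _ _ he).trans_eq (nsmul_eq_mul _ _))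

theorem Sub.or' (hμ : Sub μ) {A A1 A2 : Ω → Prop} (h : ∀ ω, A ω → A1 ω ∨ A2 ω) :
    μ A ≤ μ A1 + μ A2 := (hμ.mono _ _ h).trans (hμ.or _ _)

/-- union over the living cells off the balls. -/
theorem Sub.cells (hμ : Sub μ) (h0 : 0 ≤ ε) {A : Ω → Prop} (A' : X → Ω → Prop)
    (h : ∀ ω, A ω → ∃ x ∈ Dm, S.Off F R x ∧ A' x ω) (he : ∀ x, S.Off F R x → μ (A' x) ≤ ε) :
    μ A ≤ Dm.card * ε := by
  classical
  refine (Sub.un hμ (Dm.filter (S.Off F R)) A' (fun ω hω => ?_) fun x hx =>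
    he x (mem_filter.1 hx).2).trans (mul_le_mul_of_nonneg_right (Nat.cast_le.2 (card_filter_le _ _)) h0)
  obtain ⟨x, h1, h2, h3⟩ := h ω hω
  exact ⟨x, mem_filter.2 ⟨h1, h2⟩, h3⟩

/-- **dense step** in a random environment. -/
theorem den (hμ : Sub μ) (h0 : 0 ≤ ε) (hd : S.k0 + S.oc + d ≤ S.tm) (ht : t ≤ S.tm) (hR : R0 ≤ R1)
    (hA : Alv S Z m Dm) {E w : Ω → α}
    (f : ∀ x, S.Off F R1 x → μ (fun ω => Cls S d (E ω) Z m S.tm F R0 ∧ Fl S d (E ω) Z (w ω) m x) ≤ ε) :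
    μ (fun ω => Cls S d (E ω) Z m t F R0 ∧ ¬ Cls S (d + 1) (E ω ⊔ w ω) Z m (t + 1) F R1) ≤
      Dm.card * ε := by
  refine Sub.cells hμ h0 _ (fun ω hω => ?_) f
  by_contra hc
  refine hω.2 fun x hx => ?_
  by_cases h : x ∈ Dm
  · exact Sys.step_d hd (fun hf => hc ⟨x, h, hx, hω.1.mono le_rfl le_rfl le_rfl ht Subset.rfl le_rfl,
      hf⟩) (hω.1 x (hx.mono Subset.rfl hR)) ht
  · exact Sys.good_dead (hA x h)

/-- the three cell bounds of a random triple. -/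
structure Tri (S : Sys X α κ) (μ : (Ω → Prop) → ℝ) (w C B : Ω → α) (d : ℕ) (E : α) (Z Z' : κ)
    (m : ℕ) (F : Finset X) (R1 R2 R3 : ℕ) (ε : ℝ) : Prop where
  sub : Sub μ
  e0 : 0 ≤ ε
  le : μ (fun ω => ¬ B ω ≤ w ω ⊔ C ω) ≤ 0
  f1 : ∀ x, S.Off F R1 x → μ (fun ω => Fl S d E Z (w ω) m x) ≤ ε
  f2 : ∀ x, S.Off F R2 x → μ (fun ω => Cls S (d + 1) (E ⊔ w ω) Z m S.tm F R1 ∧
    Fl S (d + 1) (E ⊔ w ω) Z (C ω) m x) ≤ ε
  f3 : ∀ x, S.Off F R3 x → μ (fun ω => Cls S (d + 1 + 1) (E ⊔ w ω ⊔ C ω) Z m S.tm F R2 ∧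
    W2 S d E (E ⊔ w ω ⊔ C ω) (B ω) Z Z' m x) ≤ ε

/-- numerics of a step. -/
structure Rom (S : Sys X α κ) (d t R0 R1 R2 R3 : ℕ) : Prop where
  d : S.k0 + S.oc + d + 1 ≤ S.tm
  t : t + 2 ≤ S.tm
  r1 : R0 ≤ R1
  r2 : R1 ≤ R2
  r3 : R2 ≤ R3

variable {w C B : Ω → α}

theorem Tri.den1 (h : Tri S μ w C B d E Z Z' m F R1 R2 R3 ε) (n : Rom S d t R0 R1 R2 R3)
    (hA : Alv S Z m Dm) (hc : Cls S d E Z m t F R0) :
    μ (fun ω => ¬ Cls S (d + 1) (E ⊔ w ω) Z m (t + 1) F R1) ≤ Dm.card * ε :=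
  (h.sub.mono _ _ fun _ hω => ⟨hc, hω⟩).trans (den (E := fun _ => E) h.sub h.e0
    (by have := n.d; omega) (by have := n.t; omega) n.r1 hA fun x hx =>
      (h.sub.mono _ _ fun _ hω => hω.2).trans (h.f1 x hx))

theorem Tri.den2 (h : Tri S μ w C B d E Z Z' m F R1 R2 R3 ε) (n : Rom S d t R0 R1 R2 R3)
    (hA : Alv S Z m Dm) (hc : Cls S d E Z m t F R0) :
    μ (fun ω => ¬ Cls S (d + 1 + 1) (E ⊔ w ω ⊔ C ω) Z m (t + 1 + 1) F R2) ≤ 2 * Dm.card * ε := by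
  have h1 := h.den1 n hA hc
  have h2 := den (E := fun ω => E ⊔ w ω) (t := t + 1) h.sub h.e0 n.d (by have := n.t; omega) n.r2
    hA h.f2
  have := Sub.or' h.sub (A := fun ω => ¬ Cls S (d + 1 + 1) (E ⊔ w ω ⊔ C ω) Z m (t + 1 + 1) F R2)
    (A1 := fun ω => ¬ Cls S (d + 1) (E ⊔ w ω) Z m (t + 1) F R1)
    (A2 := fun ω => Cls S (d + 1) (E ⊔ w ω) Z m (t + 1) F R1 ∧
      ¬ Cls S (d + 1 + 1) (E ⊔ w ω ⊔ C ω) Z m (t + 1 + 1) F R2) fun ω hω => by tauto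
  linarith

/-- **sparse step** for all cells at once. -/
theorem Tri.step (h : Tri S μ w C B d E Z Z' m F R1 R2 R3 ε) (n : Rom S d t R0 R1 R2 R3)
    (hA : Alv S Z m Dm) (hc : Cls S d E Z m t F R0) (hZ : Z ≤ Z') :
    μ (fun ω => ¬ Stp S d E (B ω) Z Z' m F R3) ≤ 3 * Dm.card * ε := by
  have hd := n.d
  have ht := n.t
  set N1 : Ω → Prop := fun ω => ∃ x ∈ Dm, S.Off F R1 x ∧ Fl S d E Z (w ω) m x with hN1
  set N2 : Ω → Prop := fun ω => ∃ x ∈ Dm, S.Off F R2 x ∧ Cls S (d + 1) (E ⊔ w ω) Z m S.tm F R1 ∧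
    Fl S (d + 1) (E ⊔ w ω) Z (C ω) m x with hN2
  set N3 : Ω → Prop := fun ω => ∃ x ∈ Dm, S.Off F R3 x ∧
    Cls S (d + 1 + 1) (E ⊔ w ω ⊔ C ω) Z m S.tm F R2 ∧
    W2 S d E (E ⊔ w ω ⊔ C ω) (B ω) Z Z' m x with hN3
  have a1 : μ N1 ≤ Dm.card * ε := Sub.cells h.sub h.e0 _ (fun _ h => h) h.f1
  have a2 : μ N2 ≤ Dm.card * ε := Sub.cells h.sub h.e0 _ (fun _ h => h) h.f2
  have a3 : μ N3 ≤ Dm.card * ε := Sub.cells h.sub h.e0 _ (fun _ h => h) h.f3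
  have key : ∀ ω, ¬ Stp S d E (B ω) Z Z' m F R3 →
      (¬ B ω ≤ w ω ⊔ C ω ∨ N1 ω) ∨ (N2 ω ∨ N3 ω) := fun ω hω => by
    by_contra hn
    simp only [not_or, not_not] at hn
    obtain ⟨⟨hB, n1⟩, n2, n3⟩ := hn
    have c1 : Cls S (d + 1) (E ⊔ w ω) Z m (t + 1) F R1 := fun x hx => by
      by_cases h : x ∈ Dm
      · exact Sys.step_d (by omega) (fun hf => n1 ⟨x, h, hx, hf⟩)
          (hc x (hx.mono Subset.rfl n.r1)) (by omega)
      · exact Sys.good_dead (hA x h)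
    have c1' := c1.mono le_rfl le_rfl le_rfl (show t + 1 ≤ S.tm by omega) Subset.rfl le_rfl
    have c2 : Cls S (d + 1 + 1) (E ⊔ w ω ⊔ C ω) Z m S.tm F R2 := fun x hx => by
      by_cases h : x ∈ Dm
      · exact (Sys.step_d hd (fun hf => n2 ⟨x, h, hx, c1', hf⟩)
          (c1 x (hx.mono Subset.rfl n.r2)) (by omega)).up (by omega)
      · exact Sys.good_dead (hA x h)
    refine hω fun s x hx hg => ?_
    by_cases h : x ∈ Dm
    swap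
    · exact (Sys.good_dead (hA x h)).mono le_rfl le_rfl hZ le_rfl
    have k : ∀ s ≤ S.tm, S.Good d E Z m s x → S.Good d (E ⊔ B ω) Z' m (s + 1) x := fun s hs hg =>
      Sys.step_s (by omega) hZ (Sys.fails_two hd hB) (fun hf => hf.elim
        (fun hf => n1 ⟨x, h, hx.mono Subset.rfl (n.r2.trans n.r3), hf⟩)
        fun hf => n2 ⟨x, h, hx.mono Subset.rfl n.r3, c1', hf⟩) (fun hw => n3 ⟨x, h, hx, c2, hw⟩) hg hs
    by_cases hs : s ≤ S.tm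
    · exact k s hs hg
    · exact (k t (by omega) (hc x (hx.mono Subset.rfl (n.r1.trans (n.r2.trans n.r3))))).up
        (by omega)
  have b1 := Sub.or' h.sub key
  have b2 := h.sub.or (fun ω => ¬ B ω ≤ w ω ⊔ C ω) N1
  have b3 := h.sub.or N2 N3
  have := h.le
  linarith

/-- the cell bounds for the children of one cell `p` of scale `m + 1`. -/
structure Trn (S : Sys X α κ) (μ : (Ω → Prop) → ℝ) (w C B : Ω → α) (d : ℕ) (E : α) (Z : κ)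
    (m R : ℕ) (ε : ℝ) : Prop where
  g1 : ∀ p, μ (fun ω => Fn S d E Z (w ω) m p) ≤ ε
  g2 : ∀ p, μ (fun ω => Cls S (d + 1) (E ⊔ w ω) Z (m + 1) S.tm ∅ R ∧
    Fn S (d + 1) (E ⊔ w ω) Z (C ω) m p) ≤ ε
  g3 : ∀ p, μ (fun ω => Cls S (d + 1 + 1) (E ⊔ w ω ⊔ C ω) Z (m + 1) S.tm ∅ R ∧
    Wn S d E (E ⊔ w ω ⊔ C ω) (B ω) Z m p) ≤ ε

/-- **reset** of one cell. -/
theorem Tri.reset [DecidableEq X] (h : Tri S μ w C B d E' Z Z (m + 1) ∅ R R R ε)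
    (g : Trn S μ w C B d E' Z m R ε') (n : Rom S d t' R R R R) (hA : Alv S Z (m + 1) Dm)
    (hc : Cls S d E' Z (m + 1) t' ∅ R) (hE : E ≤ E') {P : Finset X}
    (hP : ∀ y, S.d x y ≤ S.ρ (m + 1) → ∃ p ∈ P, S.In m (t' + 1) p y)
    (hT : μ (fun ω => Cls S (d + 1 + 1) (E' ⊔ w ω ⊔ C ω) Z (m + 1) S.tm ∅ R ∧
      Nr S (P.biUnion (S.cov d E' Z m)) (S.rad m (t' + 1) + S.loc m) (B ω)) ≤ π)
    (hx : S.Good d E Z (m + 1) t x) :
    μ (fun ω => ¬ S.Good d (E ⊔ B ω) Z (m + 1) (t + P.card) x) ≤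
      3 * Dm.card * ε + 3 * P.card * ε' + π := by
  have hd := n.d
  have ht := n.t
  have a1 := h.den1 n hA hc
  have a2 := h.den2 n hA hc
  have b1 := Sub.un h.sub P (A := fun ω => ∃ p ∈ P, _) _ (fun _ h => h) fun p _ => g.g1 p
  have b2 := Sub.un h.sub P (A := fun ω => ∃ p ∈ P, _) _ (fun _ h => h) fun p _ => g.g2 p
  have b3 := Sub.un h.sub P (A := fun ω => ∃ p ∈ P, _) _ (fun _ h => h) fun p _ => g.g3 p
  refine le_trans (h.sub.mono _ _ fun ω hω => ?_) ((h.sub.or _ _).trans (add_le_add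
    ((h.sub.or _ _).trans (add_le_add ((h.sub.or _ _).trans (add_le_add ((h.sub.or _ _).trans
      (add_le_add h.le a1)) a2)) ((h.sub.or _ _).trans (add_le_add ((h.sub.or _ _).trans
      (add_le_add b1 b2)) b3)))) hT)) |>.trans (le_of_eq (by ring))
  by_contra hn
  simp only [not_or, not_not, not_exists, not_and] at hn
  obtain ⟨⟨⟨⟨hB, c1⟩, c2⟩, ⟨n1, n2⟩, n3⟩, n4⟩ := hn
  have c1' := c1.mono le_rfl le_rfl le_rfl (show t' + 1 ≤ S.tm by omega) Subset.rfl le_rfl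
  have c2' := c2.mono le_rfl le_rfl le_rfl (show t' + 1 + 1 ≤ S.tm by omega) Subset.rfl le_rfl
  refine hω (Sys.reset (by omega) (Sys.fails_two hd hB) hE (by omega) hP (fun p _ => hc.all p)
    (fun p hp hf => hf.elim (n1 p hp) (n2 p hp c1')) (fun p hp => n3 p hp c2')
    (fun p hp f hf z hz => lt_of_not_ge fun h3 => ?_) hx)
  exact n4 c2' ⟨f, mem_biUnion.2 ⟨p, hp, hf⟩, z, hz, h3⟩

/-- **reset** by locality. -/
theorem Tri.reset0 (h : Tri S μ w C B d E' Z Z m ∅ R R R ε) (n : Rom S d t' R R R R)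
    (hA : Alv S Z m Dm) (hc : Cls S d E' Z m t' ∅ R)
    (hT : μ (fun ω => Cls S (d + 1 + 1) (E' ⊔ w ω ⊔ C ω) Z m S.tm ∅ R ∧
      Nr S {x} (S.loc m) (B ω)) ≤ π) (hx : S.Good d E Z m t x) :
    μ (fun ω => ¬ S.Good d (E ⊔ B ω) Z m t x) ≤ 2 * Dm.card * ε + π := by
  have ht := n.t
  refine (Sub.or' h.sub fun ω hω => ?_).trans (add_le_add (h.den2 n hA hc) hT)
  by_contra hn
  simp only [not_or, not_not, not_and] at hn
  refine hω (hx.loc fun z hz => lt_of_not_ge fun h3 => hn.2 (hn.1.mono le_rfl le_rfl le_rfl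
    (by omega) Subset.rfl le_rfl) ⟨x, mem_singleton_self x, z, hz, h3⟩)

end Crest.Agent.N337.Ld
end

-- ▼ part N337/Ld/Law
section

/-!
# Row 337 (helper77), C10: the joint laws of (medium, purple loops, new pins) in a configuration
-/

set_option autoImplicit false
set_option linter.unusedSectionVars false

namespace Crest.Agent.N337.Ld

open Finset Crest.Agent.N337.Op Crest.Agent.N337.Gas Crest.Agent.N337.Pc Crest.Agent.N337.M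
open Crest.Agent.N337.Rg (Sub)
open Crest.Agent.N337.Rep (Pw Pw_nonneg sum_Pw)

open Classical in
/-- the probability of an event. -/
noncomputable def pb {Ω : Type} (E : (Ω → ℝ) → ℝ) (A : Ω → Prop) : ℝ := E (Op.ind A)

section pb
variable {Ω Ω' : Type} {E : (Ω → ℝ) → ℝ} {Sp A A' : Ω → Prop}

theorem pb_eq (E : (Ω → ℝ) → ℝ) (A : Ω → Prop) [DecidablePred A] : pb E A = E (Op.ind A) := by
  unfold pb; congr

theorem PL.pb_imp (h : PL E Sp) (hs : ∀ ω, Sp ω → A ω → A' ω) : pb E A ≤ pb E A' := by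
  classical
  rw [pb_eq, pb_eq]; exact h.imp hs

theorem PL.pb_null (h : PL E Sp) (hs : ∀ ω, Sp ω → ¬ A ω) : pb E A ≤ 0 := by
  classical
  rw [pb_eq, ← h.zero]
  exact h.mono _ _ fun ω hω => ind_le le_rfl fun h1 => absurd h1 (hs ω hω)


theorem PL.sub (h : PL E Sp) : Sub (pb E) where
  mono _ _ hs := h.pb_imp fun ω _ => hs ω
  or A B := by
    classical
    rw [pb_eq, pb_eq, pb_eq]; exact h.or fun _ _ h => h
  bot := h.pb_null fun _ _ h => h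

theorem PL.map (h : PL E Sp) (φ : Ω → Ω') :
    PL (fun F => E fun ω => F (φ ω)) fun ω' => ∃ ω, Sp ω ∧ φ ω = ω' :=
  ⟨fun _ _ hf => h.mono _ _ fun ω hω => hf _ ⟨ω, hω, rfl⟩, fun _ _ => h.add _ _,
    fun _ _ => h.mul _ _⟩

/-- a bounded function that vanishes off an event. -/
theorem PL.le_pb (h : PL E Sp) {f : Ω → ℝ} {c : ℝ} (h1 : ∀ ω, Sp ω → A ω → f ω ≤ c)
    (h0 : ∀ ω, Sp ω → ¬ A ω → f ω ≤ 0) : E f ≤ c * pb E A := by
  classical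
  rw [pb_eq, ← h.mul]
  refine h.mono _ _ fun ω hω => ?_
  unfold Op.ind; split_ifs with k
  · rw [mul_one]; exact h1 ω hω k
  · rw [mul_zero]; exact h0 ω hω k

end pb

variable {Λ : Type} [Fintype Λ] [DecidableEq Λ] {T : ℕ} [NeZero T]

/-- triples `(w, C, B)`. -/
abbrev Tp (T : ℕ) (Λ : Type) : Type := Finset (Lp T Λ) × Finset (Lp T Λ) × Finset (Lp T Λ)

/-- purple loops `C` (fugacity `Y`) and marked loops `B ⊆ C` in the configuration `s`. -/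
noncomputable def JC (G : Bs T Λ) (Y : ℝ) (μ : Lp T Λ → ℝ) (s : Cfg T Λ)
    (F : Finset (Lp T Λ) × Finset (Lp T Λ) → ℝ) : ℝ :=
  J G.ex G.ey (G.pn s) (G.mdl Y s).b μ fun ω => F ω.2

/-- purple loops only. -/
noncomputable def PC (G : Bs T Λ) (Y : ℝ) (s : Cfg T Λ) (f : Finset (Lp T Λ) → ℝ) : ℝ :=
  ∑ ξ, Pw (G.pn s) ξ * Pe.av (ub (G.mdl Y s).b) (L G.ex G.ey ξ) f

/-- first `a ~ ν` that determines the down loops `w0 a`, then purple and marked loops. -/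
noncomputable def EG (G : Bs T Λ) (Y : ℝ) (μ : Lp T Λ → ℝ) (s : Cfg T Λ) {A : Type} [Fintype A]
    (ν : A → ℝ) (w0 : A → Finset (Lp T Λ)) (B0 : A → Finset (Lp T Λ) → Finset (Lp T Λ))
    (F : Tp T Λ → ℝ) : ℝ :=
  Op.ex ν fun a => JC G Y μ (s.add (w0 a)) fun c => F (w0 a, c.1, B0 a c.2)

/-- medium resampled, `B` = marked up loops. -/
noncomputable def EK (G : Bs T Λ) (y' Y : ℝ) (μ : Lp T Λ → ℝ) (s : Cfg T Λ) : (Tp T Λ → ℝ) → ℝ :=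
  EG G Y μ s (G.gs (yw y') s) id fun _ B => B
/-- `B` = top colour of the down loops. -/
noncomputable def EH (G : Bs T Λ) (W : Lp T Λ → ℝ) (y' Y : ℝ) (s : Cfg T Λ) : (Tp T Λ → ℝ) → ℝ :=
  EG G Y (fun _ => 0) s (Pl.m2 G W y' s) fg fun X _ => fg (hi X)
/-- `B` = the down loops that meet `U`. -/
noncomputable def EU (G : Bs T Λ) (y Y : ℝ) (U : Finset (Fin T × Λ)) (s : Cfg T Λ) :
    (Tp T Λ → ℝ) → ℝ :=
  EG G Y (fun _ => 0) s (G.gs (yw y) s) id fun w _ => w.filter (Hit U)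

/-- the marks of the colour `D` among the purple loops. -/
noncomputable def mk (D : Lp T Λ → ℝ) (Y : ℝ) (g : Lp T Λ) : ℝ := D g / yw Y g

variable {G : Bs T Λ} {y y' Y : ℝ} {μ W D : Lp T Λ → ℝ} {s : Cfg T Λ} {x w A : Finset (Lp T Λ)}

theorem bt_mem (h0 : 0 ≤ Y) (h1 : Y ≤ 1) (s : Cfg T Λ) (v : Fin T × Λ) :
    0 ≤ (G.mdl Y s).b v ∧ (G.mdl Y s).b v ≤ 1 := by
  simp only [Bs.mdl, kill, Top.bt]; split_ifs <;> simp [h0, h1]

theorem pn_add (h : G.Val (s.add x)) : pin G.ex G.ey (G.pn s) x = G.pn (s.add x) := by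
  obtain ⟨ξ, -, hξ⟩ := qq_supp h
  funext r
  simp only [Bs.pn, Cfg.add] at hξ ⊢
  simp only [pin, cn_eq hξ, cn_eq (subset_union_left.trans hξ),
    cn_eq (subset_union_right.trans hξ), pts_union, tch, mem_union]
  by_cases a : (r, G.ex r) ∈ pts s.e <;> by_cases b : (r, G.ey r) ∈ pts s.e <;>
    by_cases c : (r, G.ex r) ∈ pts x <;> by_cases e : (r, G.ey r) ∈ pts x <;> simp [a, b, c, e]

theorem b_add (Y : ℝ) (s : Cfg T Λ) (x : Finset (Lp T Λ)) :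
    kill (G.mdl Y s).b (pts x) = (G.mdl Y (s.add x)).b := by
  funext v
  simp only [Bs.mdl, kill, Cfg.K_add, mem_union]
  by_cases a : v ∈ s.K <;> by_cases b : v ∈ pts x <;> simp [a, b]

/-- support of the purple and marked loops. -/
def SpC (G : Bs T Λ) (μ : Lp T Λ → ℝ) (s : Cfg T Λ) (c : Finset (Lp T Λ) × Finset (Lp T Λ)) : Prop :=
  (∃ ξ, Pw (G.pn s) ξ ≠ 0 ∧ c.1 ⊆ L G.ex G.ey ξ) ∧ (∀ g ∈ c.1, ¬ Hit s.K g) ∧ c.2 ⊆ c.1 ∧
    ∀ g ∈ c.2, μ g ≠ 0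

theorem pl_JC (hG : G.Ok) (h0 : 0 ≤ Y) (h1 : Y ≤ 1) (hμ : ∀ g, 0 ≤ μ g ∧ μ g ≤ 1) (s : Cfg T Λ) :
    PL (JC G Y μ s) (SpC G μ s) :=
  ((pl_J (hG.pn s) (bt_mem h0 h1 s) hμ).map Prod.snd).weaken fun _ ⟨ω, ⟨a, b, c, d, e⟩, h⟩ =>
    h ▸ ⟨⟨ω.1, a, b⟩, fun g hg hh => c g hg (by rw [← Bs.u_yw, Cfg.u, off, if_pos hh]), d, e⟩

theorem JC_const (G : Bs T Λ) (c : ℝ) : JC G Y μ s (fun _ => c) = c := by
  simp only [JC, J, Pe.av_const, ← sum_mul, sum_Pw, one_mul]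

theorem JC_purple (f : Finset (Lp T Λ) → ℝ) : JC G Y μ s (fun c => f c.1) = PC G Y s f :=
  J_purple fun _ => f

theorem pl_PC (hG : G.Ok) (h0 : 0 ≤ Y) (h1 : Y ≤ 1) (s : Cfg T Λ) : PL (PC G Y s) fun C =>
    (∃ ξ, Pw (G.pn s) ξ ≠ 0 ∧ C ⊆ L G.ex G.ey ξ) ∧ ∀ g ∈ C, ¬ Hit s.K g := by
  have := ((pl_JC (μ := fun _ => 0) hG h0 h1 (by simp) s).map Prod.fst).weaken
    (Sp' := fun C => (∃ ξ, Pw (G.pn s) ξ ≠ 0 ∧ C ⊆ L G.ex G.ey ξ) ∧ ∀ g ∈ C, ¬ Hit s.K g)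
    fun _ ⟨c, hc, h⟩ => h ▸ ⟨hc.1, hc.2.1⟩
  simpa only [JC_purple] using this

theorem SpC.val (hs : G.Val s) {c : Finset (Lp T Λ) × Finset (Lp T Λ)} (hG : G.Ok)
    (h : SpC G μ s c) : G.Val (s.add c.1) := by
  obtain ⟨⟨ξ, h1, h2⟩, -⟩ := h
  refine hs.add fun h0 => h1 ?_
  have := (sum_eq_zero_iff_of_nonneg fun ξ _ => mul_nonneg (Pw_nonneg (hG.pn s) ξ)
    (by split_ifs <;> norm_num)).1 h0 ξ (mem_univ _)
  simpa [h2] using this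

section EG
variable {A0 : Type} [Fintype A0] [DecidableEq A0] {ν : A0 → ℝ} {w0 : A0 → Finset (Lp T Λ)}
  {B0 : A0 → Finset (Lp T Λ) → Finset (Lp T Λ)}

theorem pl_EG (hG : G.Ok) (h0 : 0 ≤ Y) (h1 : Y ≤ 1) (hμ : ∀ g, 0 ≤ μ g ∧ μ g ≤ 1)
    (hν : ∀ a, 0 ≤ ν a) : PL (EG G Y μ s ν w0 B0) fun ω => ∃ a c, ν a ≠ 0 ∧
      SpC G μ (s.add (w0 a)) c ∧ ω = (w0 a, c.1, B0 a c.2) where
  mono f f' h := (pl_ex hν).mono _ _ fun a ha => (pl_JC hG h0 h1 hμ _).mono _ _ fun c hc =>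
    h _ ⟨a, c, ha, hc, rfl⟩
  add f f' := by
    unfold EG; rw [← ex_add]
    exact congrArg _ (funext fun a => (pl_JC hG h0 h1 hμ _).add _ _)
  mul r f := by
    unfold EG; rw [← ex_mul]
    exact congrArg _ (funext fun a => (pl_JC hG h0 h1 hμ _).mul _ _)

theorem EG_fst (P : Finset (Lp T Λ) → Prop) :
    pb (EG G Y μ s ν w0 B0) (fun ω => P ω.1) = pb (Op.ex ν) fun a => P (w0 a) := by
  classical
  rw [pb_eq, pb_eq, EG]
  refine congrArg (Op.ex ν) (funext fun a => ?_)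
  rw [← JC_const (Y := Y) (μ := μ) (s := s.add (w0 a)) G (Op.ind (fun a => P (w0 a)) a)]
  rfl

/-- bounds in the children. -/
theorem EG_le (hν : Pr ν) {P : Tp T Λ → Prop} {e : ℝ} (h : ∀ a, ν a ≠ 0 →
    pb (JC G Y μ (s.add (w0 a))) (fun c => P (w0 a, c.1, B0 a c.2)) ≤ e) :
    pb (EG G Y μ s ν w0 B0) P ≤ e :=
  ((pl_ex hν.nn).mono _ (fun _ => e) h).trans_eq (hν.ex_const e)

end EG

theorem pb_purple (P : Finset (Lp T Λ) → Prop) :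
    pb (JC G Y μ s) (fun c => P c.1) = pb (PC G Y s) P := by
  unfold pb; rw [← JC_purple (μ := μ)]; rfl

theorem mk_mem (hW : ∀ g, 0 ≤ D g ∧ D g ≤ yw Y g) (g : Lp T Λ) : 0 ≤ mk D Y g ∧ mk D Y g ≤ 1 :=
  ⟨div_nonneg (hW g).1 ((hW g).1.trans (hW g).2),
    div_le_one_of_le₀ (hW g).2 ((hW g).1.trans (hW g).2)⟩

theorem u_mk (hW : ∀ g, 0 ≤ D g ∧ D g ≤ yw Y g) (s : Cfg T Λ) (g : Lp T Λ) :
    s.u D g = ub (G.mdl Y s).b g * mk D Y g := by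
  rw [← Bs.u_yw, Cfg.u, Cfg.u, off, off, mk]
  split_ifs
  · simp
  · by_cases h : yw Y g = 0
    · rw [h, zero_mul]; exact le_antisymm ((hW g).2.trans_eq h) (hW g).1
    · field_simp

/-- marked up loops given the down loops. -/
theorem mkE_eq_JC (hs : G.Val s) (hx : G.Val (s.add x))
    (hD : ∀ g, D g = ub (G.mdl Y s).b g * μ g) (f : Finset (Lp T Λ) → ℝ) :
    mkE (Pw (G.pn s)) (L G.ex G.ey) D x f = JC G Y μ (s.add x) fun c => f c.2 := by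
  rw [mkE_eq_J ((Pl.val_add hs).1 hx) hD, pn_add hx, b_add]; rfl

/-- **the kernel of the ladder.** -/
theorem kB_eq (hG : G.Ok) (hW : ∀ g, 0 ≤ D g ∧ D g ≤ yw Y g) (hs : G.Val s)
    (hA : G.Val (s.add A)) (f : Finset (Lp T Λ) → ℝ) :
    kB (Pw (G.pn s)) (L G.ex G.ey) (s.u (yw y')) (s.u D) A f =
      EK G y' Y (mk D Y) (s.add A) fun ω => f ω.2.2 := by
  rw [kB, show qP (Pw (G.pn s)) (L G.ex G.ey) = G.q s from rfl, Pl.med_eq hG hs hA]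
  refine ex_congr fun w hw => ?_
  have := hA.add (Bs.gs_supp hw).1
  rw [Cfg.add_add] at this
  rw [mkE_eq_JC hs this (u_mk hW s), id, Cfg.add_add]

theorem hE_eq (Y : ℝ) (f : Finset (Lp T Λ) → ℝ) :
    G.hE W y' s f = EH G W y' Y s fun ω => f ω.2.2 := by
  simp only [Bs.hE, EH, EG, JC_const]

theorem gs_eq (Y : ℝ) (U : Finset (Fin T × Λ)) (f : Finset (Lp T Λ) → ℝ) :
    Op.ex (G.gs (yw y) s) (fun w => f (w.filter (Hit U))) = EU G y Y U s fun ω => f ω.2.2 := by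
  simp only [EU, EG, JC_const]

theorem pr_m2 (hG : G.Ok) (hy : 0 ≤ y') (hW : ∀ g, 0 ≤ W g - yw y' g) (s : Cfg T Λ) :
    Pr (Pl.m2 G W y' s) :=
  pr_nu (hG.cpt s).qL (Pc.two_nn (Cfg.u_nn (yw_nn hy) s) (Cfg.u_nn hW s))

theorem m2_val (hs : G.Val s) {X : Finset (Lp T Λ × Bool)} (h : Pl.m2 G W y' s X ≠ 0) :
    G.Val (s.add (fg X)) := hs.add (qL_supp (nu_supp h).1).2

open Classical in
/-- the number of loops with a property. -/
noncomputable def ct (P : Lp T Λ → Prop) (B : Finset (Lp T Λ)) : ℝ := ∑ g ∈ B, if P g then 1 else 0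

theorem NmC_eq (hW : ∀ g, 0 ≤ D g ∧ D g ≤ yw Y g) (hs : G.Val s) (P : Lp T Λ → Prop) :
    G.NmC y' D s P = EK G y' Y (mk D Y) s fun ω => ct P ω.2.2 := by
  refine ex_congr fun w hw => ?_
  refine Eq.trans ?_ (mkE_eq_JC hs (hs.add (Bs.gs_supp hw).1) (u_mk hW s) (ct P))
  refine Eq.trans (sum_congr rfl fun g _ => ?_) (mkE_sum w _).symm
  by_cases h : P g <;> simp [h, qP_eq, Bs.q]

theorem birth_eq (hG : G.Ok) (hW : ∀ g, 0 ≤ D g ∧ D g ≤ yw Y g) (hs : G.Val s)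
    (P : Lp T Λ → Prop) :
    ∑ g, s.u D g * G.q s {g} * TK.i1 (P g) = JC G Y (mk D Y) s fun c => ct P c.2 := by
  have := mkE_eq_JC (x := ∅) hs (by rwa [Cfg.add_empty]) (u_mk hW s) (ct P)
  rw [Cfg.add_empty] at this
  rw [← this]
  refine Eq.trans (sum_congr rfl fun g _ => ?_) (mkE_sum ∅ _).symm
  have e : up (qP (Pw (G.pn s)) (L G.ex G.ey)) ∅ g = G.q s {g} := by
    rw [up, if_neg (notMem_empty g), sh, empty_union, qP_eq, (cpt_qq (hG.pn s)).empty, div_one]; rfl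
  rw [e, TK.i1]; ring

theorem ct_nn (P : Lp T Λ → Prop) (B : Finset (Lp T Λ)) : 0 ≤ ct P B :=
  sum_nonneg fun _ _ => by split_ifs <;> norm_num

theorem ct_le (P : Lp T Λ → Prop) (B : Finset (Lp T Λ)) : ct P B ≤ B.card :=
  (sum_le_card_nsmul _ _ 1 fun _ _ => by split_ifs <;> norm_num).trans (by simp)

theorem ct_zero {P : Lp T Λ → Prop} {B : Finset (Lp T Λ)} (h : ∀ g ∈ B, ¬ P g) : ct P B ≤ 0 :=
  (sum_eq_zero fun g hg => if_neg (h g hg)).le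

theorem ct_or {P P1 P2 : Lp T Λ → Prop} {B : Finset (Lp T Λ)} (h : ∀ g ∈ B, P g → P1 g ∨ P2 g) :
    ct P B ≤ ct P1 B + ct P2 B := by
  unfold ct; rw [← sum_add_distrib]
  refine sum_le_sum fun g hg => ?_
  have := h g hg
  split_ifs <;> first | tauto | norm_num

/-- at most `N` alive loops. -/
theorem SpC.card_le {N : ℕ} (hN : s.Sup N) {c : Finset (Lp T Λ) × Finset (Lp T Λ)}
    (h : SpC G μ (s.add w) c) : c.2.card ≤ N := by
  obtain ⟨S, h1, h2⟩ := hN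
  obtain ⟨⟨ξ, -, h3⟩, h4, h5, -⟩ := h
  refine (card_le_card (subset_inter (h5.trans h3) h5)).trans ((card_L_le ξ fun g hg x hx =>
    h2 (0, x) fun hz => h4 g hg ⟨_, hx, mem_union_left _ hz⟩).trans h1)

end Crest.Agent.N337.Ld
end

-- ▼ part N337/Ld/Jnk

/-!
# Row 337 (helper77), C10: the cell claims `F1 … F4` and the junk steps that follow from them
-/

set_option autoImplicit false
set_option linter.unusedSectionVars false

namespace Crest.Agent.N337.Ld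

open Finset Crest.Agent.N337.Op Crest.Agent.N337.Gas Crest.Agent.N337.Pc Crest.Agent.N337.M

variable {Λ : Type} [Fintype Λ] [DecidableEq Λ] {T : ℕ} [NeZero T] {X α κ : Type} [Fintype X]
  [DecidableEq X] [SemilatticeSup α] [Preorder κ]

section defs
variable (I : Ins T Λ X α κ) (G : Bs T Λ) (Sd : Finset (Fin T × Λ) → Prop)

/-- class of a configuration with `d` dense parties (`Cd I 0 = I.Cl`). -/
def Cd (d m t : ℕ) (F : Finset X) (R : ℕ) (s : Cfg T Λ) : Prop :=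
  Cls I.S d (I.pa s.e) (I.kz s.Z) m t F R

/-- the configurations in which the cell claims are made (`Sd` = any side condition on `Z`). -/
structure Ad (d m nc R : ℕ) (s : Cfg T Λ) (F : Finset X) : Prop where
  val : G.Val s
  sd : Sd s.Z
  card : F.card ≤ nc
  cl : Cd I d m I.S.tm F R s

/-- **F1** (G4): failing trees of the down loops (`U` = extra killed points). -/
def F1 (y : ℝ) (d m nc R0 R1 : ℕ) (ε : ℝ) : Prop :=
  ∀ s F x U, Ad I G Sd d m nc R0 s F → I.S.Off F R1 x → pb (Op.ex (G.gs (yw y) (s.rev ∅ U)))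
    (fun w => Fl I.S d (I.pa s.e) (I.kz s.Z) (I.pa w) m x) ≤ ε
/-- **F2** (ENG): failing trees of the purple loops. -/
def F2 (Y : ℝ) (d m nc R0 R1 : ℕ) (ε : ℝ) : Prop :=
  ∀ s F x, Ad I G Sd d m nc R0 s F → I.S.Off F R1 x →
    pb (PC G Y s) (fun C => Fl I.S d (I.pa s.e) (I.kz s.Z) (I.pa C) m x) ≤ ε
/-- **F3** (TP): covisit trees for the law `E s` (`EK`, `EH`, `EU`); `U s` = newly killed points. -/
def F3 (E : Cfg T Λ → (Tp T Λ → ℝ) → ℝ) (U : Cfg T Λ → Finset (Fin T × Λ))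
    (d m nc R0 R2 R3 : ℕ) (ε : ℝ) : Prop :=
  ∀ s F x, Ad I G Sd d m nc R0 s F → I.S.Off F R3 x → pb (E s) (fun ω =>
    Cls I.S (d + 1 + 1) (I.pa s.e ⊔ I.pa ω.1 ⊔ I.pa ω.2.1) (I.kz s.Z) m I.S.tm F R2 ∧
    W2 I.S d (I.pa s.e) (I.pa s.e ⊔ I.pa ω.1 ⊔ I.pa ω.2.1) (I.pa ω.2.2) (I.kz s.Z)
      (I.kz (s.Z ∪ U s)) m x) ≤ ε
/-- the same for the children of a cell of scale `m + 1`. -/
def N1 (y : ℝ) (d m : ℕ) (ε : ℝ) : Prop :=
  ∀ s x, Ad I G Sd d (m + 1) 0 0 s ∅ →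
    pb (Op.ex (G.gs (yw y) s)) (fun w => Fn I.S d (I.pa s.e) (I.kz s.Z) (I.pa w) m x) ≤ ε
def N2 (Y : ℝ) (d m : ℕ) (ε : ℝ) : Prop :=
  ∀ s x, Ad I G Sd d (m + 1) 0 0 s ∅ →
    pb (PC G Y s) (fun C => Fn I.S d (I.pa s.e) (I.kz s.Z) (I.pa C) m x) ≤ ε
def N3 (E : Cfg T Λ → (Tp T Λ → ℝ) → ℝ) (d m : ℕ) (ε : ℝ) : Prop :=
  ∀ s x, Ad I G Sd d (m + 1) 0 0 s ∅ → pb (E s) (fun ω =>
    Cls I.S (d + 1 + 1) (I.pa s.e ⊔ I.pa ω.1 ⊔ I.pa ω.2.1) (I.kz s.Z) (m + 1) I.S.tm ∅ 0 ∧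
    Wn I.S d (I.pa s.e) (I.pa s.e ⊔ I.pa ω.1 ⊔ I.pa ω.2.1) (I.pa ω.2.2) (I.kz s.Z) m x) ≤ ε
/-- **F4**: the loop of a given point is rarely marked. -/
def F4 (Y : ℝ) (μ : Lp T Λ → ℝ) (d m : ℕ) (π : ℝ) : Prop :=
  ∀ s v, Ad I G Sd d m 0 0 s ∅ → JC G Y μ s (fun c => ct (fun g => v ∈ g.2) c.2) ≤ π

/-- the three claims of one step. -/
structure F123 (y Y : ℝ) (E : Cfg T Λ → (Tp T Λ → ℝ) → ℝ) (U : Cfg T Λ → Finset (Fin T × Λ))
    (d m nc R0 R1 R2 R3 : ℕ) (ε : ℝ) : Prop where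
  e0 : 0 ≤ ε
  f1 : F1 I G Sd y d m nc R0 R1 ε
  f2 : F2 I G Sd Y (d + 1) m nc R1 R2 ε
  f3 : F3 I G Sd E U d m nc R0 R2 R3 ε

/-- (geometry) few living cells. -/
def AlvH (N m nD : ℕ) : Prop :=
  ∀ s : Cfg T Λ, s.Sup N → ∃ Dm : Finset X, Dm.card ≤ nD ∧ Alv I.S (I.kz s.Z) m Dm

/-- (geometry, slowness) good pins that come within `r` of a cell pass one of `nA` anchors. -/
def Anc (d m r nA : ℕ) : Prop :=
  ∀ x : X, ∃ An : Finset (Fin T × Λ), An.card ≤ nA ∧ ∀ s B, Ad I G Sd d m 0 0 s ∅ → B ⊆ s.e →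
    (∀ g ∈ B, ¬ Hit s.Z g) → Nr I.S {x} r (I.pa B) → ∃ g ∈ B, ∃ v ∈ An, v ∈ g.2

/-- the classes; `Fc` reads the cover from `s.cv`. -/
structure Kl (N nc d m t : ℕ) (Fc : Finset Λ → Finset X) (R : ℕ) (s : Cfg T Λ) : Prop where
  sup : s.Sup N
  sd : Sd s.Z
  card : (Fc s.cv).card ≤ nc
  cl : Cd I d m t (Fc s.cv) R s

end defs

variable {I : Ins T Λ X α κ} {G : Bs T Λ} {Sd : Finset (Fin T × Λ) → Prop}
  {d m t N nc nD nA r R R0 R1 R2 R3 : ℕ} {y y' Y ε ε' π : ℝ} {μ W D : Lp T Λ → ℝ} {s : Cfg T Λ}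
  {F : Finset X} {Fc : Finset Λ → Finset X} {U U' : Cfg T Λ → Finset (Fin T × Λ)}
  {w x : Finset (Lp T Λ)} {In Out : Cfg T Λ → Prop}

theorem cd_add : Cd I d m t F R (s.add x) ↔ Cls I.S d (I.pa s.e ⊔ I.pa x) (I.kz s.Z) m t F R := by
  rw [← I.pa_union]; rfl

theorem Cd.of_add (h : Cd I d m t F R (s.add x)) : Cd I d m t F R s :=
  (cd_add.1 h).mono le_rfl le_sup_left le_rfl le_rfl Subset.rfl le_rfl

theorem Cd.sub {x' : Finset (Lp T Λ)} (h : Cd I d m t F R (s.add x)) (hx : x' ⊆ x) :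
    Cd I d m t F R (s.add x') :=
  Cls.mono h le_rfl (Ins.pa_mono (union_subset_union_right hx)) le_rfl le_rfl Subset.rfl le_rfl

theorem Kl.ad (h : Kl I Sd N nc d m t Fc R s) (hs : G.Val s) (ht : t ≤ I.S.tm) :
    Ad I G Sd d m nc R s (Fc s.cv) :=
  ⟨hs, h.sd, h.card, Cls.mono h.cl le_rfl le_rfl le_rfl ht Subset.rfl le_rfl⟩

theorem Kl.add {d' t' R' : ℕ} (h : Kl I Sd N nc d m t Fc R s)
    (h' : Cd I d' m t' (Fc s.cv) R' (s.add x)) : Kl I Sd N nc d' m t' Fc R' (s.add x) :=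
  ⟨h.sup, h.sd, h.card, h'⟩

theorem Kl.anti : Cfg.Anti (Kl I Sd N nc d m t Fc R) := fun _ _ h => ⟨h.sup, h.sd, h.card, h.cl.of_add⟩

theorem Kl.mono {d' t' R' : ℕ} (h : Kl I Sd N nc d m t Fc R s) (hd : d ≤ d') (ht : t ≤ t')
    (hR : R ≤ R') : Kl I Sd N nc d' m t' Fc R' s :=
  ⟨h.sup, h.sd, h.card, Cls.mono h.cl hd le_rfl le_rfl ht Subset.rfl hR⟩

theorem Ad.add {d' R' : ℕ} (h : Ad I G Sd d m nc R s F) (hx : G.Val (s.add x))
    (h' : Cls I.S d' (I.pa s.e ⊔ I.pa x) (I.kz s.Z) m I.S.tm F R') :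
    Ad I G Sd d' m nc R' (s.add x) F := ⟨hx, h.sd, h.card, cd_add.2 h'⟩

theorem rev_empty (s : Cfg T Λ) : s.rev ∅ ∅ = s := by simp [Cfg.rev]

theorem F1.base (f : F1 I G Sd y d m nc R0 R1 ε) {x : X} (a : Ad I G Sd d m nc R0 s F)
    (hx : I.S.Off F R1 x) :
    pb (Op.ex (G.gs (yw y) s)) (fun w => Fl I.S d (I.pa s.e) (I.kz s.Z) (I.pa w) m x) ≤ ε := by
  have := f s F x ∅ a hx
  rwa [rev_empty] at this

/-- standing assumptions. -/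
structure Std (G : Bs T Λ) (y Y : ℝ) (μ : Lp T Λ → ℝ) : Prop where
  ok : G.Ok
  y0 : 0 ≤ y
  Y0 : 0 ≤ Y
  Y1 : Y ≤ 1
  μ : ∀ g, 0 ≤ μ g ∧ μ g ≤ 1

section EG
variable {A0 : Type} [Fintype A0] [DecidableEq A0] {ν : A0 → ℝ} {w0 : A0 → Finset (Lp T Λ)}
  {B0 : A0 → Finset (Lp T Λ) → Finset (Lp T Λ)}

/-- a claim on the purple loops, made in the children. -/
theorem EG_child (h : Std G y Y μ) (hν : Pr ν) (h0 : 0 ≤ ε) {Q : Finset (Lp T Λ) → Prop}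
    {P : Finset (Lp T Λ) → Finset (Lp T Λ) → Prop}
    (f : ∀ a, ν a ≠ 0 → Q (w0 a) → pb (PC G Y (s.add (w0 a))) (P (w0 a)) ≤ ε) :
    pb (EG G Y μ s ν w0 B0) (fun ω => Q ω.1 ∧ P ω.1 ω.2.1) ≤ ε := by
  refine EG_le hν fun a ha => ?_
  have hJ := pl_JC h.ok h.Y0 h.Y1 h.μ (s.add (w0 a))
  by_cases hq : Q (w0 a)
  · exact ((hJ.pb_imp fun _ _ h => h.2).trans_eq (pb_purple _)).trans (f a ha hq)
  · exact (hJ.pb_null fun _ _ h => hq h.1).trans h0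

theorem tri_EG (h : Std G y Y μ) (hν : Pr ν) (hv : ∀ a, ν a ≠ 0 → G.Val (s.add (w0 a)))
    (hB : ∀ a B, B0 a B ⊆ w0 a ∪ B) (hw : ∀ P : Finset (Lp T Λ) → Prop,
      pb (Op.ex ν) (fun a => P (w0 a)) = pb (Op.ex (G.gs (yw y) s)) P)
    {E : Cfg T Λ → (Tp T Λ → ℝ) → ℝ} (hE : E s = EG G Y μ s ν w0 B0)
    (f : F123 I G Sd y Y E U d m nc R0 R1 R2 R3 ε) (a : Ad I G Sd d m nc R0 s F) :
    Tri I.S (pb (E s)) (fun ω => I.pa ω.1) (fun ω => I.pa ω.2.1) (fun ω => I.pa ω.2.2) d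
      (I.pa s.e) (I.kz s.Z) (I.kz (s.Z ∪ U s)) m F R1 R2 R3 ε := by
  have hP := pl_EG (s := s) (w0 := w0) (B0 := B0) h.ok h.Y0 h.Y1 h.μ hν.nn
  refine ⟨hE ▸ hP.sub, f.e0, ?_, fun x hx => ?_, fun x hx => ?_, fun x hx => f.f3 s F x a hx⟩
  · rw [hE]
    refine hP.pb_null fun ω ⟨b, c, _, h2, h3⟩ hn => hn ?_
    subst h3
    rw [← I.pa_union]
    exact Ins.pa_mono ((hB b c.2).trans (union_subset_union_right h2.2.2.1))
  · rw [hE, EG_fst fun w => Fl I.S d (I.pa s.e) (I.kz s.Z) (I.pa w) m x,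
      hw fun w => Fl I.S d (I.pa s.e) (I.kz s.Z) (I.pa w) m x]
    exact f.f1.base a hx
  · rw [hE]
    refine EG_child h hν f.e0
      (Q := fun w => Cls I.S (d + 1) (I.pa s.e ⊔ I.pa w) (I.kz s.Z) m I.S.tm F R1)
      (P := fun w C => Fl I.S (d + 1) (I.pa s.e ⊔ I.pa w) (I.kz s.Z) (I.pa C) m x) fun b hb hq => ?_
    rw [← I.pa_union]
    exact f.f2 (s.add (w0 b)) F x (a.add (hv b hb) hq) hx

end EG

theorem Std.pr (h : Std G y Y μ) (s : Cfg T Λ) : Pr (G.gs (yw y) s) := h.ok.pr (yw_nn h.y0) s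

theorem Std.zero (h : Std G y Y μ) : Std G y Y fun _ => 0 := ⟨h.ok, h.y0, h.Y0, h.Y1, by simp⟩

theorem pl_EK (h : Std G y Y μ) (s : Cfg T Λ) : PL (EK G y Y μ s) fun ω =>
    G.gs (yw y) s ω.1 ≠ 0 ∧ SpC G μ (s.add ω.1) ω.2 :=
  (pl_EG h.ok h.Y0 h.Y1 h.μ (h.pr s).nn).weaken fun _ ⟨_, _, h1, h2, h3⟩ => h3 ▸ ⟨h1, h2⟩

theorem triK (h : Std G y Y μ) 
    (f : F123 I G Sd y Y (EK G y Y μ) (fun _ => ∅) d m nc R0 R1 R2 R3 ε) (a : Ad I G Sd d m nc R0 s F) :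
    Tri I.S (pb (EK G y Y μ s)) (fun ω => I.pa ω.1) (fun ω => I.pa ω.2.1) (fun ω => I.pa ω.2.2) d
      (I.pa s.e) (I.kz s.Z) (I.kz s.Z) m F R1 R2 R3 ε := by
  have := tri_EG h (h.pr s) (fun _ hw => a.val.add (Bs.gs_supp hw).1)
    (fun _ _ => subset_union_right) (fun _ => rfl) rfl f a
  rwa [union_empty] at this

open Classical in
/-- **StepV**: the gas has extra killed points. -/
theorem stepV (h : Std G y Y μ) (h0 : 0 ≤ ε) (f : F1 I G Sd y d m nc R0 R1 ε)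
    (hA : AlvH I N m nD) (hd : I.S.k0 + I.S.oc + d ≤ I.S.tm) (ht : t ≤ I.S.tm) (hR : R0 ≤ R1)
    (hI : ∀ s, In s → Kl I Sd N nc d m t Fc R0 s)
    (hO : ∀ s x, In s → Cd I (d + 1) m (t + 1) (Fc s.cv) R1 (s.add x) → Out (s.add x))
    (s : Cfg T Λ) (hs : G.Val s) (hi : In s) (V : Finset (Fin T × Λ)) :
    Op.ex (G.gs (yw y) (s.rev ∅ V)) (Op.ind fun w => ¬ Out (s.add w)) ≤ nD * ε := by
  have k := hI s hi
  obtain ⟨Dm, h1, h2⟩ := hA s k.sup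
  have hP := pl_ex (h.pr (s.rev ∅ V)).nn
  rw [← pb_eq (Op.ex _)]
  refine (hP.pb_imp fun w _ hw => ⟨k.cl, fun hc => hw (hO s w hi (cd_add.2 hc))⟩).trans
    ((den (E := fun _ => I.pa s.e) (w := I.pa) hP.sub h0 hd ht hR h2 fun x hx =>
      (hP.pb_imp fun _ _ h => h.2).trans (f s _ x V (k.ad hs ht) hx)).trans (by gcongr))

/-- **StepW** -/
theorem stepW (h : Std G y Y μ) (h0 : 0 ≤ ε) (f : F1 I G Sd y d m nc R0 R1 ε)
    (hA : AlvH I N m nD) (hd : I.S.k0 + I.S.oc + d ≤ I.S.tm) (ht : t ≤ I.S.tm) (hR : R0 ≤ R1)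
    (hI : ∀ s, In s → Kl I Sd N nc d m t Fc R0 s)
    (hO : ∀ s x, In s → Cd I (d + 1) m (t + 1) (Fc s.cv) R1 (s.add x) → Out (s.add x)) :
    G.StepW y In Out (nD * ε) := fun s hs hi => by
  have := stepV h h0 f hA hd ht hR hI hO s hs hi ∅
  rwa [rev_empty] at this

/-- **StepB** -/
theorem stepB (h : Std G y Y μ) (hy : y ≤ Y) (h0 : 0 ≤ ε) (f : F2 I G Sd Y d m nc R0 R1 ε)
    (hA : AlvH I N m nD) (hd : I.S.k0 + I.S.oc + d ≤ I.S.tm) (ht : t ≤ I.S.tm) (hR : R0 ≤ R1)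
    (hI : ∀ s, In s → Kl I Sd N nc d m t Fc R0 s)
    (hO : ∀ s x, In s → Cd I (d + 1) m (t + 1) (Fc s.cv) R1 (s.add x) → Out (s.add x)) :
    G.StepB y In Out (N * (nD * ε)) := fun s hs hi => by
  have k := hI s hi
  obtain ⟨Dm, h1, h2⟩ := hA s k.sup
  have hW : ∀ g : Lp T Λ, 0 ≤ yw y g ∧ yw y g ≤ yw Y g := fun g =>
    ⟨yw_nn h.y0 g, by rw [yw_eq, yw_eq]; exact pow_le_pow_left₀ h.y0 hy _⟩
  have hP := pl_JC h.ok h.Y0 h.Y1 (mk_mem hW) s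
  rw [birth_eq h.ok hW hs]
  refine (hP.le_pb (c := N) (A := fun c => Cd I d m t (Fc s.cv) R0 s ∧ ¬ Cls I.S (d + 1)
    (I.pa s.e ⊔ I.pa c.1) (I.kz s.Z) m (t + 1) (Fc s.cv) R1) (fun c hc _ => (ct_le _ _).trans
      (Nat.cast_le.2 (SpC.card_le (w := ∅) k.sup (by rwa [Cfg.add_empty]))))
    fun c hc hn => ct_zero fun g hg ho => hn ⟨k.cl, fun h3 => ho (hO s _ hi
      ((cd_add.2 h3).sub (singleton_subset_iff.2 (hc.2.2.1 hg))))⟩).trans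
    (mul_le_mul_of_nonneg_left ?_ (Nat.cast_nonneg _))
  refine (den (E := fun _ => I.pa s.e) (w := fun c : _ × _ => I.pa c.1) hP.sub h0 hd ht hR h2
    fun x hx => ?_).trans (by gcongr)
  exact ((hP.pb_imp fun _ _ h => h.2).trans_eq (pb_purple _)).trans (f s _ x (k.ad hs ht) hx)

/-- **StepH** -/
theorem stepH (h : Std G y Y μ) (h0 : 0 ≤ y') (hy : y' ≤ y)
    (f : F123 I G Sd y Y (EH G (yw y) y' Y) (fun _ => ∅) d m nc R0 R1 R2 R3 ε)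
    (hA : AlvH I N m nD) (n : Rom I.S d t R0 R1 R2 R3) (hI : ∀ s, In s → Kl I Sd N nc d m t Fc R0 s)
    (hO : ∀ s x, In s → Cd I d m (t + 1) (Fc s.cv) R3 (s.add x) → Out (s.add x)) :
    G.StepH (yw y) y' In Out (3 * nD * ε) := fun s hs hi => by
  classical
  have k := hI s hi
  obtain ⟨Dm, h1, h2⟩ := hA s k.sup
  have hν := pr_m2 (W := yw y) h.ok h0 (fun g => by
    rw [yw_eq, yw_eq]; exact sub_nonneg.2 (pow_le_pow_left₀ h0 hy _)) s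
  have tr := tri_EG h.zero hν (fun _ hX => m2_val hs hX) (B0 := fun X _ => fg (Pc.hi X))
    (fun X _ g hg => mem_union_left _ (by
      obtain ⟨a, ha⟩ := mem_fg.1 hg; exact mem_fg.2 ⟨a, (mem_filter.1 ha).1⟩))
    (fun P => by rw [pb_eq, pb_eq, ← Pl.ex_m2 (yw y) y' s]; rfl) rfl f
    (k.ad hs (by have := n.t; omega))
  rw [union_empty] at tr
  have e0 := f.e0
  rw [hE_eq Y]
  refine le_trans (le_of_eq (pb_eq _ fun ω : Tp T Λ => ¬ Out (s.add ω.2.2)).symm)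
    ((tr.sub.mono _ _ fun ω hω hc => hω (hO s _ hi (cd_add.2 (hc.cls k.cl
      (n.r1.trans (n.r2.trans n.r3)))))).trans ((tr.step n h2 k.cl le_rfl).trans (by gcongr)))

open Classical in
/-- **StepX**: the loops that meet `U s` are pinned, `U' s` is killed. -/
theorem stepX (h : Std G y Y μ)
    (f : F123 I G Sd y Y (fun s => EU G y Y (U s) s) U' d m nc R0 R1 R2 R3 ε)
    (hA : AlvH I N m nD) (n : Rom I.S d t R0 R1 R2 R3)
    (hI : ∀ s, In s → Kl I Sd N nc d m t Fc R0 s)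
    (hO : ∀ s x, In s → Cd I d m (t + 1) (Fc s.cv) R3 (s.rev x (U' s)) → Out (s.rev x (U' s)))
    (s : Cfg T Λ) (hs : G.Val s) (hi : In s) : Op.ex (G.gs (yw y) s)
      (Op.ind fun w => ¬ Out (s.rev (w.filter (Hit (U s))) (U' s))) ≤ 3 * nD * ε := by
  have k := hI s hi
  obtain ⟨Dm, h1, h2⟩ := hA s k.sup
  have tr := tri_EG h.zero (h.pr s) (fun _ hw => hs.add (Bs.gs_supp hw).1)
    (B0 := fun w _ => w.filter (Hit (U s))) (w0 := id)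
    (fun _ _ => (filter_subset _ _).trans subset_union_left) (fun _ => rfl) rfl f
    (k.ad hs (by have := n.t; omega))
  have e0 := f.e0
  refine le_trans (le_of_eq ((gs_eq Y (U s) (Op.ind fun B => ¬ Out (s.rev B (U' s)))).trans
    (pb_eq _ fun ω : Tp T Λ => ¬ Out (s.rev ω.2.2 (U' s))).symm))
    ((tr.sub.mono _ _ fun ω hω hc => hω (hO s _ hi ?_)).trans
      ((tr.step n h2 k.cl (I.kz_mono subset_union_left)).trans (by gcongr)))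
  have := hc.cls k.cl (n.r1.trans (n.r2.trans n.r3))
  rwa [← I.pa_union] at this

/-- **StepU** -/
theorem stepU (h : Std G y Y μ)
    (f : F123 I G Sd y Y (fun s => EU G y Y (U s) s) U d m nc R0 R1 R2 R3 ε)
    (hA : AlvH I N m nD) (n : Rom I.S d t R0 R1 R2 R3)
    (hI : ∀ s, In s → Kl I Sd N nc d m t Fc R0 s)
    (hO : ∀ s x, In s → Cd I d m (t + 1) (Fc s.cv) R3 (s.rev x (U s)) → Out (s.rev x (U s))) :
    G.StepU y U In Out (3 * nD * ε) := stepX h f hA n hI hO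


/-- the mean number of marked loops that break the step. -/
theorem rate_stp (h : Std G y Y μ)
    (f : F123 I G Sd y Y (EK G y Y μ) (fun _ => ∅) d m nc R0 R1 R2 R3 ε) (n : Rom I.S d t R0 R1 R2 R3)
    (hs : G.Val s) (hN : s.Sup N) (hS : Sd s.Z) (hF : F.card ≤ nc)
    (hc : Cd I d m t F R0 s) {Dm : Finset X} (hA : Alv I.S (I.kz s.Z) m Dm) :
    EK G y Y μ s (fun ω => ct (fun g => ¬ Stp I.S d (I.pa s.e) (I.pa {g}) (I.kz s.Z) (I.kz s.Z) m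
      F R3) ω.2.2) ≤ N * (3 * Dm.card * ε) := by
  have tr := triK h f ⟨hs, hS, hF, Cls.mono hc le_rfl le_rfl le_rfl (by have := n.t; omega)
    Subset.rfl le_rfl⟩
  exact ((pl_EK h s).le_pb (fun ω hω _ => (ct_le _ _).trans (Nat.cast_le.2 (hω.2.card_le hN)))
    fun ω _ hn => ct_zero fun g hg ho => ho ((not_not.1 hn).mono
      (Ins.pa_mono (singleton_subset_iff.2 hg)))).trans
    (mul_le_mul_of_nonneg_left (tr.step n hA hc le_rfl) (Nat.cast_nonneg _))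

theorem ct_mono {P P' : Lp T Λ → Prop} {B : Finset (Lp T Λ)} (h : ∀ g ∈ B, P g → P' g) :
    ct P B ≤ ct P' B :=
  (ct_or (P2 := fun _ => False) fun g hg k => .inl (h g hg k)).trans
    (by linarith [ct_zero (P := fun _ => False) (B := B) fun _ _ h => h])

/-- **StepM** -/
theorem stepM (h : Std G y Y (mk D Y)) (hD : ∀ g, 0 ≤ D g ∧ D g ≤ yw Y g)
    (f : F123 I G Sd y Y (EK G y Y (mk D Y)) (fun _ => ∅) d m nc R0 R1 R2 R3 ε)
    (hA : AlvH I N m nD) (n : Rom I.S d t R0 R1 R2 R3) (hI : ∀ s, In s → Kl I Sd N nc d m t Fc R0 s)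
    (hO : ∀ s x, In s → Cd I d m (t + 1) (Fc s.cv) R3 (s.add x) → Out (s.add x)) :
    G.StepM y D In Out (N * (3 * nD * ε)) := fun s hs hi => by
  have k := hI s hi
  obtain ⟨Dm, h1, h2⟩ := hA s k.sup
  have e0 := f.e0
  rw [NmC_eq hD hs]
  exact ((pl_EK h s).mono _ _ fun ω _ => ct_mono fun g _ ho hc => ho (hO s _ hi
    (cd_add.2 (hc.cls k.cl (n.r1.trans (n.r2.trans n.r3)))))).trans
    ((rate_stp h f n hs k.sup k.sd k.card k.cl h2).trans (by gcongr))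

end Crest.Agent.N337.Ld
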