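import Crest.Agent.N337.C9.Ins
import Crest.Agent.N337.Gl.Tb
import Crest.Agent.N337.E.Det
import Crest.Agent.N337.Rg.F3
import Crest.Agent.N337.Ld.Grd

-- ▼ part N337/Ld/Gc
section

/-!
# Row 337 (helper77): the junk of a class, tube data and the Green bound `Cx.GC`
-/

set_option autoImplicit false
set_option linter.unusedSectionVars false

namespace Crest.Agent.N337.Ld

open Finset Crest.Agent.N337.Free Crest.Agent.N337.I Crest.Agent.N337.M Crest.Agent.N337.Rg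
  Crest.Agent.N337.Tr Crest.MathPhysics.SpinModel

section junk
variable {X α κ : Type} [Fintype X] [SemilatticeSup α] [Preorder κ]

/-- the junk of a class of scale `m`. -/
def JU (S : Sys X α κ) (d : ℕ) (E : α) (Z : κ) (m l : ℕ) (y : X) : Prop :=
  (l < m ∧ S.Jk d E Z l y) ∨ (l = m ∧ ¬ S.Good d E Z m S.tm y)

variable {S : Sys X α κ} {d m l R : ℕ} {E : α} {Z : κ} {y : X} {F : Finset X}

theorem JU.lt (h : l < m) : JU S d E Z m l y ↔ S.Jk d E Z l y :=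
  ⟨fun k => (k.resolve_right fun a => h.ne a.1).2, fun k => .inl ⟨h, k⟩⟩

theorem JU.le (h : JU S d E Z m l y) : l ≤ m := h.elim (fun k => k.1.le) fun k => k.1.le

theorem JU.cov (hc : Cls S d E Z m S.tm F R) (h : JU S d E Z m m y) : ∃ f ∈ F, S.d f y ≤ R := by
  by_contra k
  exact (h.resolve_left fun a => lt_irrefl _ a.1).2
    (hc y fun f hf => lt_of_not_ge fun a => k ⟨f, hf, a⟩)

theorem JU.good (hd : S.k0 + S.oc + d ≤ S.tm) (hl : l ≤ m) (h : ¬ JU S d E Z m l y) :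
    S.Good d E Z l S.tm y := by
  rcases hl.eq_or_lt with rfl | k
  · exact not_not.1 fun a => h (.inr ⟨rfl, a⟩)
  · exact (not_not.1 fun a => h (.inl ⟨k, a⟩) : S.Good d E Z l _ y).up hd

theorem iso_lt (h : l < m) (hy : S.Iso (S.Jk d E Z) l y) : S.Iso (JU S d E Z m) l y :=
  hy.mono fun _ k => (JU.lt h).1 k

theorem iso_eq (hc : Cls S d E Z m S.tm F R) (h1 : S.sep m ≤ S.Sx m) (h2 : R ≤ S.Sx m)
    (h3 : F.card ≤ S.N) (hy : S.Off F (S.Lam * max R (S.sep m)) y) : S.Iso (JU S d E Z m) m y :=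
  ⟨_, F, le_max_right _ _, max_le h2 h1, h3, fun _ hu _ =>
    (hu.cov hc).imp fun _ k => ⟨k.1, k.2.trans (le_max_left _ _)⟩, hy⟩

theorem iso_gt (h : m < l) (h1 : S.sep l ≤ S.Sx l) : S.Iso (JU S d E Z m) l y :=
  ⟨_, ∅, le_rfl, h1, Nat.zero_le _, fun _ hu _ => absurd hu.le (not_le.2 h), by simp⟩

end junk

variable {L n T : ℕ} [NeZero L] [NeZero T]

section uc
variable {α κ : Type} [SemilatticeSup α] [Preorder κ]

/-- numbers for `UC` in the class `(d, m, nc, R)`. -/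
structure UcN (S : Sys (Tor 3 L) α κ) (G : Eg) (d m nc R : ℕ) : Prop where
  hd : S.k0 + S.oc + d ≤ S.tm
  N0 : 125 * ((S.tm + 1) * S.a) ≤ G.N0
  H : ∀ l < m, 5 * ((3 * S.tm + 1) * S.H l) ≤ 2 * S.ρ (l + 1)
  nc : nc ≤ G.N0 ∧ nc ≤ S.N
  R : R ≤ S.Sx m

variable {S : Sys (Tor 3 L) α κ} {G : Eg} {d m nc R R' lo : ℕ} {E : α} {Z : κ}
  {F : Finset (Tor 3 L)}

/-- **the junk of a class is sparse.** -/
theorem uc_JU (hO : Ok S G) (N : UcN S G d m nc R) (hF : F.card ≤ nc)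
    (hc : Cls S d E Z m S.tm F R) : UC S G (JU S d E Z m) := by
  classical
  intro l _ b hb
  have hL : 1 ≤ S.Lam := le_trans (Nat.le_add_left _ _) hO.lam
  rcases lt_trichotomy l m with h | rfl | h
  · obtain ⟨Q, q1, -, q2⟩ := cover b 2 (S.ρ (l + 1) - (3 * S.tm + 1) * S.H l)
    have hH := N.H l h
    refine ⟨(Q.filter fun p => tdist b p ≤ 4 * S.ρ (l + 1)).biUnion (S.cov d E Z l),
      ((card_biUnion_le_card_mul _ _ _ fun p hp => (JU.good N.hd h
        (hb p (mem_filter.1 hp).2)).card_cov).trans (Nat.mul_le_mul_right _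
          ((card_filter_le _ _).trans q1))).trans N.N0, fun y hy hU => ?_⟩
    obtain ⟨p, p1, p2⟩ := q2 y (by omega)
    have p3 : tdist b p ≤ 4 * S.ρ (l + 1) := by
      have := tdist_triangle b y p
      rw [tdist_comm y p] at this
      omega
    have g := JU.good N.hd h (hb p p3)
    have r1 := g.rk_le
    have r2 : S.rad l (S.rk d E Z (l + 1) p) ≤ S.Sx l := by simpa using Sys.rad_Sx r1 0 (by omega)
    have r3 : S.d p y + 3 * S.rk d E Z (l + 1) p * S.H l + (0 + 1) * S.H l ≤ S.ρ (l + 1) := by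
      have : 3 * S.rk d E Z (l + 1) p * S.H l ≤ 3 * S.tm * S.H l := by gcongr
      rw [hO.d, add_mul] at *
      omega
    by_contra k
    have o : S.Off (S.cov d E Z l p) (S.Lam * S.rad l (S.rk d E Z (l + 1) p)) y := fun f hf =>
      lt_of_not_ge fun a => k ⟨f, mem_biUnion.2 ⟨p, mem_filter.2 ⟨p1, p3⟩, hf⟩, hO.d f y ▸
        a.trans ((Nat.mul_le_mul_left _ r2).trans (hO.Sg l).1)⟩
    rcases hU with hU | hU
    · obtain ⟨f, hf, a⟩ := g.cv y (by omega) ((JU.lt h).1 hU)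
      exact absurd (a.trans (Nat.le_mul_of_pos_left _ hL)) (not_le.2 (o f hf))
    · exact hU (iso_lt h (g.cv.iso (S.sep_le_rad _ _) r2 (by have := g.card_N le_rfl; omega) r3 o))
  · refine ⟨F, hF.trans N.nc.1, fun y _ hU => ?_⟩
    have a := (Nat.mul_le_mul_left S.Lam (max_le N.R (hO.Sg l).2)).trans (hO.Sg l).1
    by_contra k
    have o : S.Off F (S.Lam * max R (S.sep l)) y := fun f hf =>
      lt_of_not_ge fun c => k ⟨f, hf, hO.d f y ▸ c.trans a⟩
    rcases hU with hU | hU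
    · obtain ⟨f, hf, c⟩ := hU.cov hc
      exact absurd ((c.trans (le_max_left _ _)).trans (Nat.le_mul_of_pos_left _ hL))
        (not_le.2 (o f hf))
    · exact hU (iso_eq hc (hO.Sg l).2 N.R (hF.trans N.nc.2) o)
  · exact ⟨∅, Nat.zero_le _, fun y _ hU => hU.elim (fun k => absurd k.le (not_le.2 h))
      fun k => absurd (iso_gt h (hO.Sg l).2) k⟩

/-- **tube data** at a point that is isolated below `m` and near a point off the cover. -/
theorem tb_JU (hO : Ok S G) (N : UcN S G d m nc R) (hm : m < G.mt) (hF : F.card ≤ nc)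
    (hc : Cls S d E Z m S.tm F R) (hR : nc ≠ 0 → S.Lam * max R (S.sep m) ≤ R') {x y : Tor 3 L}
    (hx : S.Off F R' x) (hy : tdist x y ≤ G.rr m)
    (h : ∀ l, lo ≤ l → l < m → ∃ z, tdist z y ≤ G.rr l ∧ S.Iso (S.Jk d E Z) l z) :
    TB S G lo (JU S d E Z m) (lf 0 y) := by
  have key : ∀ l z, tdist z y ≤ G.rr l → S.Iso (JU S d E Z m) l z →
      ∃ z', dist (lf 0 y) z' ≤ G.rr l ∧ S.Iso (JU S d E Z m) l (tcast L z') := fun l z a b =>
    ⟨lf (lf 0 y) z, by rw [dist_comm, dist_lf, tcast_lf, tdist_comm]; exact_mod_cast a,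
      by rwa [tcast_lf]⟩
  refine TB.of_iso hO (uc_JU hO N hF hc) (fun _ k => absurd k.le (not_le.2 hm)) fun l h1 _ => ?_
  rcases lt_trichotomy l m with k | rfl | k
  · obtain ⟨z, a, b⟩ := h l h1 k
    exact key l z a (iso_lt k b)
  · exact key l x hy (iso_eq hc (hO.Sg l).2 N.R (hF.trans N.nc.2) fun f hf =>
      (hR fun e => by simp [card_eq_zero.1 (Nat.le_zero.1 (e ▸ hF))] at hf).trans_lt (hx f hf))
  · exact key l y (by rw [tdist_self]; omega) (iso_gt k (hO.Sg l).2)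

end uc

/-- numbers: the scales of G1 cover the junk of the class `(m, nc, R)`. -/
structure CvN (P : I.Num) (S : G1.Scales) (m nc R : ℕ) : Prop where
  lo : ∀ l < m, (P.tm + 1) * P.a ≤ S.a (l + 1) ∧ P.rad l P.tm ≤ S.σ (l + 1) ∧
    4 * S.η (l + 1) + 3 * P.tm * P.H l ≤ P.ρ (l + 1)
  top : nc ≤ S.a (m + 1) ∧ R ≤ S.σ (m + 1)

variable {W : Gl.Wd T} {G : Bs T (Tor 3 L × Fin n)} {P : I.Num} {z0 : Tor 3 L} {S : G1.Scales}
  {Y e μ0 : ℝ} {d m nc R R' t x0 j : ℕ} {Ge : Eg} {k k' th : ℕ → ℕ}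
  {s : Cfg T (Tor 3 L × Fin n)} {F : Finset (Tor 3 L)}

/-- **the child model and its junk** in the class `(d, m, F, R)` of the state `s.e ⊔ evp ξ C`. -/
theorem st_JU (w : C9.Wr W G P.toLf Y) (nu : Gl.Nu W L P.toLf S t x0 j) (ht : P.tm ≤ t)
    (hd : P.k0 + 27 + d ≤ P.tm) (c : CvN P S m nc R)
    (tb : Tb.Nu (sys n T P z0) Ge S k k' th) (hm : m < Ge.mt) (hs : G.Val s) (hF : F.card ≤ nc)
    {O C : Finset (V L n T)} {ξ : Fin T → Bool} (hO : O ⊆ C)
    (he : 2 * Arc.ends G.ex G.ey ξ O ≤ x0)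
    (h : Cls (sys n T P z0) d (I.ev G.ex G.ey s.e ⊔ evp G.ex G.ey ξ C) (kil s.Z) m P.tm F R) :
    ∃ U, Gl.St W G.ex G.ey P.toLf S t x0 j (G.pn s) (G.mdl Y s).b (I.ev G.ex G.ey s.e) (kil s.Z)
      ξ O C U ∧ Gl.Lnk (sys n T P z0) Ge S k k' th U
        (JU (sys n T P z0) d (I.ev G.ex G.ey s.e ⊔ evp G.ex G.ey ξ C) (kil s.Z) m) := by
  classical
  set E := I.ev G.ex G.ey s.e ⊔ evp G.ex G.ey ξ C
  set J := jk (sys n T P z0) d E (kil s.Z) P.tm with hJ
  obtain ⟨ξ0, -, hξ⟩ := Gas.qq_supp hs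
  refine ⟨fun l => if l ≤ m + 1 then J l else ∅, ⟨w.wd, ⟨w.ok.pn s, fun r hr => ?_, rp_ev _ hξ⟩,
    nu, C9.fld w.Y0 w.Y1 s, le_bE (fun v => ?_) (fun v hv => ?_) fun v hv => ?_, hO, he,
    fun l h1 h2 y h3 h4 => ?_, fun y hy => ?_⟩, tb, if_neg (by have := tb.mt; omega),
    fun l _ u hu => ⟨u, by rw [tdist_self]; omega, ?_⟩⟩
  · rw [w.p0]; exact if_neg hr
  · exact (Gas.kill_le (fun v => by unfold Top.bt; split_ifs; exacts [w.Y0, zero_le_one]) _ v).trans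
      (w.b0 v)
  · exact if_pos (mem_union_right _ hv)
  · exact if_pos (mem_union_left _ (mem_of_kil hv))
  · obtain ⟨l, rfl⟩ : ∃ k, l = k + 1 := ⟨l - 1, by omega⟩
    rcases lt_trichotomy l m with a | rfl | a
    · simp only [if_pos (show l + 1 + 1 ≤ m + 1 by omega), if_pos (show l + 1 ≤ m + 1 by omega)]
        at h4 ⊢
      have g := not_mem_jk.1 h4
      obtain ⟨c1, c2, c3⟩ := c.lo l a
      refine ⟨_, g.card_cov.trans c1, fun u hu h5 => ?_⟩
      obtain ⟨f, a, b⟩ := g.jk_cov (le_trans (Nat.add_le_add_right h5 _) c3)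
        fun k => mem_jk.1 hu (k.up hd)
      exact ⟨f, a, b.trans c2⟩
    · refine ⟨F, hF.trans c.top.1, fun u hu _ => ?_⟩
      rw [if_pos le_rfl] at hu
      obtain ⟨f, a, b⟩ := JU.cov h (.inr ⟨rfl, mem_jk.1 hu⟩)
      exact ⟨f, a, b.trans c.top.2⟩
    · rw [if_neg (by omega)] at h3
      exact absurd h3 (notMem_empty _)
  · rw [if_pos (by omega)] at hy
    exact (sys n T P z0).G0_mono ht le_rfl le_rfl (not_mem_jk.1 hy)
  · by_cases a : l + 1 ≤ m + 1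
    · rw [if_pos a] at hu
      by_contra b
      exact mem_jk.1 hu (JU.good hd (by omega) b)
    · rw [if_neg a] at hu
      exact absurd hu (notMem_empty _)

/-- **numbers of the Green bound `GC`**; `μ0` = zero mode, `e` = Trotter error. -/
structure GcN (c : Cx T (Tor 3 L × Fin n) (Tor 3 L)) (P : I.Num) (z0 : Tor 3 L) (S : G1.Scales)
    (Ge : Eg) (k k' th : ℕ → ℕ) (κ μ0 e : ℝ) (d nc R R' : ℕ) : Prop where
  π : c.π = Prod.fst
  ok : Ok (sys n T P z0) Ge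
  tb : Tb.Nu (sys n T P z0) Ge S k k' th
  uc : UcN (sys n T P z0) Ge d c.μ nc R
  cv : CvN P S c.μ nc R
  mt : c.μ < Ge.mt
  R : nc ≠ 0 → P.Lam * max R (P.sep c.μ) ≤ R'
  lo : ∀ l ≤ c.μ, c.lo l ≤ Ge.rr l
  gr : ∀ l < c.μ, ∀ r, c.cs l ≤ r → r ≤ P.sep l → ∃ q, 1 ≤ q ∧ q + 2 * c.lo l ≤ r ∧
    2 * (q + P.A) ≤ 2 ^ k l ∧ 4 * S.η l ≤ q ∧
    G1.Cg κ * (μ0 + Gl.gF (sys n T P z0) Ge S k k' P.A l q + e) ≤ c.τ l r ^ 16

/-- **`Cx.GC`** (`In3.hG`) on the concrete rung. -/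
theorem gc_ins {c : Cx T (Tor 3 L × Fin n) (Tor 3 L)} (w : C9.Wr W G P.toLf Y)
    (nu : Gl.Nu W L P.toLf S t x0 j) (ht : P.tm ≤ t) (hx0 : 2 ≤ x0) (he : W.er L n ≤ e)
    (N : GcN c P z0 S Ge k k' th W.κ μ0 e d nc R R') (hs : G.Val s)
    (top : Gl.Tp W (kil s.Z) (Gl.vT Ge k) μ0) (hF : F.card ≤ nc) {x : Tor 3 L}
    (hx : (sys n T P z0).Off F R' x) : (c.rt x).GC G (ins G.ex G.ey P z0) Y d F R s := by
  intro A ξ O l r u v _ hA hO hE hR hl h1 h2 hc _ _ hf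
  obtain ⟨q, q0, q1, q2, q3, q4⟩ := N.gr l hl r h1 h2
  have hR' : Cls (sys n T P z0) d (I.ev G.ex G.ey s.e ⊔ evp G.ex G.ey ξ (Gas.pts A)) (kil s.Z) c.μ
      P.tm F R := by rw [← I.ev_eq hA]; exact hR
  obtain ⟨U, st, lk⟩ := st_JU w nu ht N.uc.hd N.cv N.tb N.mt hs hF hO (by omega) hR'
  have e1 : (c.rt x).π = Prod.fst := N.π
  simp only [Cx.Cln, Cx.Far, e1] at hc hf
  have tb := tb_JU (lo := l) N.ok N.uc N.mt hF hR' N.R hx (hc.1.trans (N.lo _ le_rfl))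
    fun l' a b => (hc.2 l' a b).imp fun z hz => ⟨hz.1.trans (N.lo l' (le_of_lt b)),
      by rw [← I.ev_eq hA]; exact hz.2⟩
  have huv : q ≤ tdist u.2.1 v.2.1 := by
    change r < tdist u.2.1 v.2.1 + 2 * c.lo l at hf
    omega
  have := st.farT lk tb (by have := N.mt; change l < c.μ at hl; omega) q2 q3 top
    (.inr (tcast_lf _ _)) huv
  rw [if_neg fun a => by rw [a, tdist_self] at huv; omega, sub_zero] at this
  exact this.trans ((mul_le_mul_of_nonneg_left (add_le_add le_rfl he)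
    (G1.Cg_nonneg w.wd.clock.hκ)).trans q4)

end Crest.Agent.N337.Ld
end

-- ▼ part N337/Ld/Us

/-!
# Row 337 (helper77): `Cx.UL` for unions of grid cubes, `Cx.Sm` for thin top colours
-/

set_option autoImplicit false
set_option linter.unusedSectionVars false

namespace Crest.Agent.N337.Ld

open Finset Crest.Agent.N337.Free Crest.Agent.N337.I Crest.Agent.N337.M Crest.Agent.N337.Rg
  Crest.Agent.N337.Gas

variable {L n T : ℕ} [NeZero L] [NeZero T] {ex ey : Fin T → Tor 3 L × Fin n} {P : I.Num}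
  {z0 : Tor 3 L} {c : Cx T (Tor 3 L × Fin n) (Tor 3 L)}

/-- **`UL`**: the cells in which no octant dies are far from the newly killed cubes. -/
theorem ul_grd (hπ : c.π = Prod.fst)
    (hJ : ∀ k y, ∀ v ∈ c.J0 k y, (sys n T P z0).d y (c.π v.2) ≤ c.lo k)
    (hσ : ∀ k < c.μ, 2 * P.sep k ≤ P.σ k) {C : Finset (Tor 3 L × Fin n)}
    (hC : ∀ k < c.μ, Grd z0 (P.σ k) C) (s : Cfg T (Tor 3 L × Fin n)) (x : Tor 3 L) :
    (c.rt x).UL (ins ex ey P z0) s (A.cyl C) ((ins ex ey P z0).kz (s.Z ∪ A.cyl C)) := by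
  intro k hk y _ ho v hv u hu hZ
  have a1 : P.σ k < 2 * tdist y u.2.1 := lt_of_not_ge fun h =>
    absurd ho (not_le.2 ((hC k hk).oct_lt (A.mem_cyl.1 hu) hZ h))
  have a2 := hJ k y v hv
  have a3 := tdist_triangle y v.2.1 u.2.1
  have a4 := hσ k hk
  rw [hπ] at a2
  change tdist y v.2.1 ≤ _ at a2
  change P.sep k < tdist (c.π v.2) (c.π u.2) + 2 * c.lo k
  rw [hπ]
  omega

/-- a loop that stays near one of its points has few windings. -/
theorem wd_short (hπ : c.π = Prod.fst) {k r : ℕ} {v : V L n T} {g : Lp T (Tor 3 L × Fin n)}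
    (h : ¬ c.Lng (sys n T P z0) k r v g) : wd g ≤ C9.Vn n r := by
  refine (card_le_card (t := (univ.filter fun y => tdist v.2.1 y ≤ r) ×ˢ (univ : Finset (Fin n)))
    fun y hy => mem_product.2 ⟨mem_filter.2 ⟨mem_univ _, ?_⟩, mem_univ _⟩).trans ?_
  · have : ¬ r < tdist (c.π v.2) (c.π y) + 2 * c.lo k := fun a => h ⟨_, (mem_filter.1 hy).2, a⟩
    rw [hπ] at this
    omega
  · rw [card_product, card_univ, Fintype.card_fin, mul_comm]
    exact Nat.mul_le_mul_left _ (card_ball_le _ _)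


/-- the purple fugacity `exp (-1 / K)` is harmless on `V ≤ K / 2` windings. -/
theorem half_le_pow {K : ℝ} {V : ℕ} (hK : 0 < K) (h : 2 * V ≤ K) :
    1 / 2 ≤ Real.exp (-1 / K) ^ V := by
  rw [← Real.exp_nat_mul]
  refine le_trans ?_ (Real.add_one_le_exp _)
  have : (V : ℝ) / K ≤ 1 / 2 := by rw [div_le_iff₀ hK]; linarith
  rw [mul_div, mul_neg, mul_one, neg_div]
  linarith

end Crest.Agent.N337.Ld
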