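import Crest.Agent.N337.Pc.Defs

/-!
# Row 337 (helper77), C10: the count ladder, abstract form

`PL E Sp`: `E` is a positive linear functional carried by `Sp`.  `Ldr` is the ladder of the peel
built on a monotone family `Gd t A x` ("the cell at `x` has rung `≤ t` when `A` is pinned").
-/

set_option autoImplicit false
set_option linter.unusedSectionVars false

namespace Crest.Agent.N337.Ld

open Finset Crest.Agent.N337.Op Crest.Agent.N337.Gas Crest.Agent.N337.Pc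

/-- positive linear functionals carried by `Sp`. -/
structure PL {Ω : Type} (E : (Ω → ℝ) → ℝ) (Sp : Ω → Prop) : Prop where
  mono : ∀ f g, (∀ ω, Sp ω → f ω ≤ g ω) → E f ≤ E g
  add : ∀ f g, E (fun ω => f ω + g ω) = E f + E g
  mul : ∀ a f, E (fun ω => a * f ω) = a * E f

section PL
variable {Ω : Type} {E : (Ω → ℝ) → ℝ} {Sp : Ω → Prop}

theorem PL.zero (h : PL E Sp) : E (fun _ => 0) = 0 := by
  simpa using h.mul 0 fun _ => 0

theorem PL.nn (h : PL E Sp) {f : Ω → ℝ} (hf : ∀ ω, Sp ω → 0 ≤ f ω) : 0 ≤ E f :=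
  h.zero ▸ h.mono _ _ hf

theorem PL.sum (h : PL E Sp) {ι : Type} (I : Finset ι) (f : ι → Ω → ℝ) :
    E (fun ω => ∑ i ∈ I, f i ω) = ∑ i ∈ I, E (f i) := by
  classical
  induction I using Finset.induction_on with
  | empty => simpa using h.zero
  | insert i I hi ih => simp only [sum_insert hi]; rw [h.add, ih]

theorem PL.weaken (h : PL E Sp) {Sp' : Ω → Prop} (hs : ∀ ω, Sp ω → Sp' ω) : PL E Sp' :=
  ⟨fun f g hfg => h.mono f g fun ω hω => hfg ω (hs ω hω), h.add, h.mul⟩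

theorem ind_le {S : Ω → Prop} [DecidablePred S] {ω : Ω} {a : ℝ} (h0 : 0 ≤ a) (h1 : S ω → 1 ≤ a) :
    ind S ω ≤ a := by
  unfold ind; split_ifs with h; exacts [h1 h, h0]

theorem ind_pos {S : Ω → Prop} [DecidablePred S] {ω : Ω} (h : S ω) : ind S ω = 1 := if_pos h

theorem PL.imp (h : PL E Sp) {S S' : Ω → Prop} [DecidablePred S] [DecidablePred S']
    (hs : ∀ ω, Sp ω → S ω → S' ω) : E (ind S) ≤ E (ind S') :=
  h.mono _ _ fun ω hω => ind_le (ind_nn _ _) fun h1 => (ind_pos (hs ω hω h1)).ge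

theorem PL.or (h : PL E Sp) {S S1 S2 : Ω → Prop} [DecidablePred S] [DecidablePred S1]
    [DecidablePred S2] (hs : ∀ ω, Sp ω → S ω → S1 ω ∨ S2 ω) :
    E (ind S) ≤ E (ind S1) + E (ind S2) := by
  rw [← h.add]
  refine h.mono _ _ fun ω hω => ind_le (add_nonneg (ind_nn _ _) (ind_nn _ _)) fun h1 => ?_
  rcases hs ω hω h1 with h2 | h2
  · rw [ind_pos h2]; linarith [ind_nn S2 ω]
  · rw [ind_pos h2]; linarith [ind_nn S1 ω]

/-- union bound. -/
theorem PL.union (h : PL E Sp) {ι : Type} (I : Finset ι) {S : Ω → Prop} [DecidablePred S]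
    {S' : ι → Ω → Prop} [∀ i, DecidablePred (S' i)] (hs : ∀ ω, Sp ω → S ω → ∃ i ∈ I, S' i ω) :
    E (ind S) ≤ ∑ i ∈ I, E (ind (S' i)) := by
  rw [← h.sum]
  refine h.mono _ _ fun ω hω => ind_le (sum_nonneg fun i _ => ind_nn _ _) fun h1 => ?_
  obtain ⟨i, hi, h2⟩ := hs ω hω h1
  exact (ind_pos h2).ge.trans (single_le_sum (f := fun i => ind (S' i) ω) (fun i _ => ind_nn _ _) hi)

theorem PL.union_le (h : PL E Sp) {ι : Type} (I : Finset ι) {S : Ω → Prop} [DecidablePred S]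
    {S' : ι → Ω → Prop} [∀ i, DecidablePred (S' i)] (hs : ∀ ω, Sp ω → S ω → ∃ i ∈ I, S' i ω)
    {e : ℝ} (he : ∀ i ∈ I, E (ind (S' i)) ≤ e) : E (ind S) ≤ I.card * e :=
  (h.union I hs).trans ((sum_le_card_nsmul _ _ _ he).trans_eq (nsmul_eq_mul _ _))

/-- Markov's inequality for a count. -/
theorem PL.markov (h : PL E Sp) {ι : Type} (I : Finset ι) {S : Ω → Prop} [DecidablePred S]
    {S' : ι → Ω → Prop} [∀ i, DecidablePred (S' i)] {N : ℝ}
    (hs : ∀ ω, Sp ω → S ω → N ≤ (I.filter fun i => S' i ω).card)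
    {e : ℝ} (he : ∀ i ∈ I, E (ind (S' i)) ≤ e) : N * E (ind S) ≤ I.card * e := by
  rw [← h.mul]
  refine le_trans ?_ ((sum_le_card_nsmul _ _ _ he).trans_eq (nsmul_eq_mul _ _))
  rw [← h.sum]
  refine h.mono _ _ fun ω hω => ?_
  have e1 : ∑ i ∈ I, ind (S' i) ω = (I.filter fun i => S' i ω).card := by simp [ind]
  rw [e1]
  unfold ind; split_ifs with h1
  · rw [mul_one]; exact hs ω hω h1
  · rw [mul_zero]; exact Nat.cast_nonneg _

theorem pl_ex [Fintype Ω] [DecidableEq Ω] {μ : Ω → ℝ} (hμ : ∀ ω, 0 ≤ μ ω) : PL (ex μ) fun ω => μ ω ≠ 0 where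
  mono f g h := sum_le_sum fun ω _ => by
    by_cases h0 : μ ω = 0
    · simp [h0]
    · exact mul_le_mul_of_nonneg_left (h ω h0) (hμ ω)
  add := ex_add
  mul := ex_mul

end PL

section kB
variable {Γ Ξ : Type} [Fintype Γ] [DecidableEq Γ] [Fintype Ξ] {P : Ξ → ℝ} {L : Ξ → Finset Γ}
  {u D : Γ → ℝ}

theorem qP_nn (hP : ∀ ξ, 0 ≤ P ξ) (A : Finset Γ) : 0 ≤ qP P L A :=
  sum_nonneg fun ξ _ => mul_nonneg (hP ξ) (by split_ifs <;> norm_num)

theorem cpt_qP (hP : Pr P) : Cpt (qP P L) where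
  nn := qP_nn hP.nn
  empty := by simp [qP, hP.one]
  anti A B h := sum_le_sum fun ξ _ => mul_le_mul_of_nonneg_left (by
    split_ifs with h1 h2 h2
    · exact le_rfl
    · exact absurd (h.trans h1) h2
    · norm_num
    · exact le_rfl) (hP.nn ξ)

theorem bw_nn (h0 : ∀ g, 0 ≤ D g) (h1 : ∀ g, D g ≤ 1) (X B : Finset Γ) : 0 ≤ bw D X B :=
  mul_nonneg (prod_nonneg fun g _ => h0 g) (prod_nonneg fun g _ => sub_nonneg.2 (h1 g))

/-- the marked up loops: they carry weight, are new and are compatible with `x`. -/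
theorem pl_mkE (hP : ∀ ξ, 0 ≤ P ξ) (h0 : ∀ g, 0 ≤ D g) (h1 : ∀ g, D g ≤ 1) (x : Finset Γ) :
    PL (mkE P L D x) fun B => (∀ g ∈ B, D g ≠ 0) ∧ Disjoint x B ∧
      ∃ ξ, P ξ ≠ 0 ∧ x ∪ B ⊆ L ξ where
  mono f g h := by
    refine div_le_div_of_nonneg_right (sum_le_sum fun ξ _ => ?_) (qP_nn hP x)
    by_cases hξ : P ξ = 0
    · simp [hξ]
    refine mul_le_mul_of_nonneg_left ?_ (hP ξ)
    split_ifs with hx
    · refine sum_le_sum fun B hB => ?_
      by_cases hb : bw D (L ξ \ x) B = 0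
      · simp [hb]
      have hB' := mem_powerset.1 hB
      refine mul_le_mul_of_nonneg_left (h B ⟨prod_ne_zero_iff.1 (left_ne_zero_of_mul hb), ?_,
        ξ, hξ, union_subset hx (hB'.trans sdiff_subset)⟩) (bw_nn h0 h1 _ _)
      exact disjoint_sdiff.mono_right hB'
    · exact le_rfl
  add f g := by
    unfold mkE
    rw [← add_div, ← sum_add_distrib]
    congr 1
    refine sum_congr rfl fun ξ _ => ?_
    split_ifs
    · simp only [mul_add, sum_add_distrib]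
    · simp
  mul a f := by
    unfold mkE
    rw [← mul_div_assoc, mul_sum]
    congr 1
    refine sum_congr rfl fun ξ _ => ?_
    split_ifs
    · rw [mul_left_comm, mul_sum _ _ a]
      exact congrArg _ (sum_congr rfl fun B _ => by ring)
    · simp

theorem pl_kB (hP : Pr P) (hu : ∀ g, 0 ≤ u g) (h0 : ∀ g, 0 ≤ D g) (h1 : ∀ g, D g ≤ 1)
    {A : Finset Γ} (hA : qP P L A ≠ 0) :
    PL (kB P L u D A) fun B => (∀ g ∈ B, D g ≠ 0) ∧ Disjoint A B ∧
      ∃ ξ, P ξ ≠ 0 ∧ A ∪ B ⊆ L ξ where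
  mono f g h := ex_mono (nu_nn ((cpt_qP hP).sh hA) (off_nn hu)) fun w =>
    (pl_mkE hP.nn h0 h1 (A ∪ w)).mono f g fun B ⟨a, b, ξ, c, d⟩ =>
      h B ⟨a, b.mono_left subset_union_left, ξ, c,
        (union_subset_union_left subset_union_left).trans d⟩
  add f g := by
    unfold kB
    rw [← ex_add]
    exact congrArg _ (funext fun w => (pl_mkE hP.nn h0 h1 (A ∪ w)).add f g)
  mul a f := by
    unfold kB
    rw [← ex_mul]
    exact congrArg _ (funext fun w => (pl_mkE hP.nn h0 h1 (A ∪ w)).mul a f)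

end kB

section ladder
variable {Γ X : Type} [DecidableEq Γ] [Fintype X]

open Classical in
/-- the cells of rung `> t`. -/
noncomputable def Hi (Gd : ℕ → Finset Γ → X → Prop) (t : ℕ) (A : Finset Γ) : Finset X :=
  univ.filter fun x => ¬ Gd t A x

/-- **the ladder.** -/
def Ldr (Gd : ℕ → Finset Γ → X → Prop) (Ok : Γ → Prop) (t0 st k : ℕ) (N : ℕ → ℝ) (i : ℕ)
    (A : Finset Γ) : Prop :=
  (∀ g ∈ A, Ok g) ∧ (∀ l < k, ((Hi Gd (t0 + (l + 1) * st + i) A).card : ℝ) ≤ N (l + 1)) ∧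
    ∀ x, Gd (t0 + (k + 1) * st + i) A x

/-- monotone rungs. -/
def Mon (Gd : ℕ → Finset Γ → X → Prop) : Prop :=
  ∀ t t' A B x, t ≤ t' → B ⊆ A → Gd t A x → Gd t' B x

variable {Gd : ℕ → Finset Γ → X → Prop} {Ok : Γ → Prop} {t0 st k : ℕ} {N : ℕ → ℝ}

theorem mem_Hi {t : ℕ} {A : Finset Γ} {x : X} : x ∈ Hi Gd t A ↔ ¬ Gd t A x := by simp [Hi]

theorem Mon.hi (hm : Mon Gd) {t t' : ℕ} {A B : Finset Γ} (ht : t ≤ t') (h : B ⊆ A) :
    Hi Gd t' B ⊆ Hi Gd t A := fun x hx =>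
  mem_Hi.2 fun hg => mem_Hi.1 hx (hm t t' A B x ht h hg)

theorem Ldr.le (hm : Mon Gd) {i i' : ℕ} {A B : Finset Γ} (h : Ldr Gd Ok t0 st k N i A)
    (hi : i ≤ i') (hB : B ⊆ A) : Ldr Gd Ok t0 st k N i' B :=
  ⟨fun g hg => h.1 g (hB hg), fun l hl => le_trans
    (Nat.cast_le.2 (card_le_card (hm.hi (by omega) hB))) (h.2.1 l hl),
    fun x => hm _ _ _ _ x (by omega) hB (h.2.2 x)⟩


/-- every cell goes up by at most `j` rungs. -/
theorem Ldr.step {i j : ℕ} {A A' : Finset Γ} (h : Ldr Gd Ok t0 st k N i A)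
    (ho : ∀ g ∈ A', Ok g) (hs : ∀ t x, Gd t A x → Gd (t + j) A' x) :
    Ldr Gd Ok t0 st k N (i + j) A' :=
  ⟨ho, fun l hl => le_trans (Nat.cast_le.2 (card_le_card fun x hx => mem_Hi.2 fun hg =>
    mem_Hi.1 hx (by rw [← add_assoc]; exact hs _ x hg))) (h.2.1 l hl),
    fun x => by rw [← add_assoc]; exact hs _ x (h.2.2 x)⟩

variable {E : (Finset Γ → ℝ) → ℝ} {Sp : Finset Γ → Prop}

/-- **(H1)** -/
theorem h1_of (hE : PL E Sp) {i : ℕ} {A : Finset Γ} (h : Ldr Gd Ok t0 st k N i A)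
    {Fail : Finset Γ → Prop} [DecidablePred Fail]
    (hO : ∀ B, Sp B → ¬ Fail B → ∀ g ∈ B, Ok g)
    (hS : ∀ B, Sp B → ¬ Fail B → ∀ t x, Gd t A x → Gd (t + 1) (A ∪ B) x)
    [DecidablePred fun B => ¬ Ldr Gd Ok t0 st k N (i + 1) (A ∪ B)] :
    E (ind fun B => ¬ Ldr Gd Ok t0 st k N (i + 1) (A ∪ B)) ≤ E (ind Fail) :=
  hE.imp fun B hB hn => by
    by_contra hf
    exact hn (h.step (fun g hg => (mem_union.1 hg).elim (h.1 g) (hO B hB hf g)) (hS B hB hf))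

/-- **(H2)** -/
theorem h2_of (hE : PL E Sp) (hm : Mon Gd) {n : ℕ} (hn : n + 1 ≤ st) {A : Finset Γ}
    (h : Ldr Gd Ok t0 st k N n A) {Fail : Finset Γ → Prop} [DecidablePred Fail]
    {Tch : X → Finset Γ → Prop} [∀ x, DecidablePred (Tch x)] {Dm : Finset X} {π δ : ℝ}
    (hO : ∀ B, Sp B → ¬ Fail B → ∀ g ∈ B, Ok g)
    (hS : ∀ B, Sp B → ¬ Fail B → ∀ t x, Gd t A x → Gd (t + 1) (A ∪ B) x)
    (hR : ∀ B, Sp B → ¬ Fail B → ∀ x, ¬ Tch x B → Gd (t0 + st) B x)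
    (hD : ∀ B, Sp B → ∀ x, Tch x B → x ∈ Dm) (hπ : ∀ x, E (ind (Tch x)) ≤ π) (hπ0 : 0 ≤ π)
    (hN0 : (Dm.card : ℝ) ≤ N 0) (hN : ∀ l < k, 0 < N (l + 1) ∧ N l * π ≤ δ * N (l + 1))
    (hNk : N k * π ≤ δ) [DecidablePred fun B => ¬ Ldr Gd Ok t0 st k N 0 B] :
    E (ind fun B => ¬ Ldr Gd Ok t0 st k N 0 B) ≤ E (ind Fail) + (k + 1) * δ := by
  classical
  set I : ℕ → Finset X := fun l => if l = 0 then Dm else Hi Gd (t0 + l * st + n) A with hI
  have hIc : ∀ l ≤ k, ((I l).card : ℝ) ≤ N l := fun l hl => by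
    rcases l with _ | l
    · exact hN0
    · exact h.2.1 l hl
  have key : ∀ B, Sp B → ¬ Fail B → ∀ l x, x ∈ Hi Gd (t0 + (l + 1) * st + 0) B →
      x ∈ (I l).filter fun x => Tch x B := fun B hB hf l x hx => by
    have hx := mem_Hi.1 hx
    have ht : Tch x B := by
      by_contra ht
      exact hx (hm _ _ _ _ x (by rw [add_mul]; omega) Subset.rfl (hR B hB hf x ht))
    refine mem_filter.2 ⟨?_, ht⟩
    simp only [hI]
    split_ifs
    · exact hD B hB x ht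
    · exact mem_Hi.2 fun hg => hx (hm _ _ _ _ x (by rw [add_mul]; omega) subset_union_right
        (hS B hB hf _ x hg))
  set Bd : ℕ → Finset Γ → Prop := fun l B =>
    (if l < k then N (l + 1) else 1) ≤ (((I l).filter fun x => Tch x B).card : ℝ) with hBd
  obtain ⟨U, hU⟩ : ∃ U : Finset Γ → Prop, ∀ B, U B ↔ ∃ l ∈ range (k + 1), Bd l B :=
    ⟨_, fun _ => Iff.rfl⟩
  have a1 : E (ind fun B => ¬ Ldr Gd Ok t0 st k N 0 B) ≤ E (ind Fail) + E (ind U) := by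
    refine hE.or fun B hB hn => ?_
    rw [hU]
    by_contra hc
    rw [not_or] at hc
    refine hn ⟨hO B hB hc.1, fun l hl => ?_, fun x => ?_⟩
    · by_contra h2
      refine hc.2 ⟨l, mem_range.2 (by omega), ?_⟩
      simp only [hBd, if_pos hl]
      exact (not_le.1 h2).le.trans (Nat.cast_le.2 (card_le_card (key B hB hc.1 l)))
    · by_contra h2
      refine hc.2 ⟨k, mem_range.2 (by omega), ?_⟩
      simp only [hBd, if_neg (lt_irrefl k)]
      exact_mod_cast card_pos.2 ⟨x, key B hB hc.1 k x (mem_Hi.2 h2)⟩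
  refine a1.trans (add_le_add le_rfl ?_)
  refine (hE.union_le (range (k + 1)) (S' := Bd) (fun B _ hb => (hU B).1 hb) (e := δ)
    fun l hl => ?_).trans (by simp)
  have hl : l ≤ k := Nat.lt_succ_iff.1 (mem_range.1 hl)
  have a2 := hE.markov (I l) (S := Bd l) (S' := fun x => Tch x) (fun B _ hb => hb)
    (fun x _ => hπ x)
  have a3 := mul_le_mul_of_nonneg_right (hIc l hl) hπ0
  split_ifs at a2 with hlk
  · obtain ⟨b1, b2⟩ := hN l hlk
    exact le_of_mul_le_mul_left (by linarith) b1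
  · have : l = k := by omega
    subst this; linarith

end ladder

end Crest.Agent.N337.Ld
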